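import Vale.Agent.P004S.Lv.Cube

/-!
# P004, block SMITH, row LEV: cancellation over the primes of a piece
-/

set_option linter.all false

noncomputable section

namespace Vale.Agent.P004S.Lv

open NumberField Matrix Finset
open Vale.Agent.P022 (Qb GQ IsConj)
open Vale.Agent.P027M.S (Inert)
open Vale.Agent.P022D.W (dec)
open Vale.Agent.P022E.GW (Ov Fb Gn Ch)
open scoped Classical

variable {r : Rp} {S : Finset ℕ} {pl : Pl}

theorem sgn_zero : sgn 0 = 1 := if_pos rfl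

theorem sgn_add (a b : ZMod 2) : sgn (a + b) = sgn a * sgn b := by
  rcases z2 a with rfl | rfl <;> rcases z2 b with rfl | rfl <;>
    simp [sgn, show (1 + 1 : ZMod 2) = 0 from rfl]

theorem sgn_sum {α : Type} (T : Finset α) (f : α → ZMod 2) :
    sgn (∑ i ∈ T, f i) = ∏ i ∈ T, sgn (f i) := by
  induction T using Finset.induction_on with
  | empty => simpa using sgn_zero
  | insert i T hi ih => rw [sum_insert hi, prod_insert hi, sgn_add, ih]

theorem abs_sgn (a : ZMod 2) : |sgn a| = 1 := by unfold sgn; split_ifs <;> simp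

theorem smul_iff {H : Subgroup GQ} (hN : H.Normal) (σ : GQ) (c : GQ ⧸ H) : σ • c = c ↔ σ ∈ H := by
  induction c using QuotientGroup.induction_on with
  | H t =>
    rw [MulAction.Quotient.smul_mk, QuotientGroup.eq, smul_eq_mul, _root_.mul_inv_rev, mul_assoc,
      hN.mem_comm_iff, mul_inv_cancel_right, inv_mem_iff]

theorem chs_tw (H : Subgroup GQ) (hH : IsOpen (H : Set GQ)) (ξ : GQ → ZMod 2) (U : Finset ℕ)
    (x : ℕ) : chs pl H (fun g => ξ g + ∑ l ∈ U, nu l g) x =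
      (∏ l ∈ U, sgn (nu l (pl.σ x))) * chs pl H ξ x := by
  haveI := H.quotient_finite_of_isOpen hH
  haveI := Fintype.ofFinite (GQ ⧸ H)
  rw [chs, chs, finsum_eq_sum_of_fintype, finsum_eq_sum_of_fintype, mul_sum]
  refine sum_congr rfl fun c _ => ?_
  split_ifs
  · rw [sgn_add, sgn_sum, mul_comm]
    refine congrArg (· * _) (prod_congr rfl fun l _ => ?_)
    simpa using congrArg sgn (nu_conj l c.out⁻¹ (pl.σ x))
  · rw [mul_zero]

theorem ind_eq (T : Finset ℕ) (u s : ℕ → ZMod 2) :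
    ∑ U ∈ T.powerset, (∏ l ∈ U, sgn (s l)) * ∏ l ∈ U, sgn (u l) =
      if ∀ l ∈ T, u l = s l then 2 ^ T.card else 0 := by
  simp only [← prod_mul_distrib, ← sgn_add]
  rw [← prod_one_add]
  split_ifs with h
  · rw [prod_congr rfl fun l hl => by
      rw [h l hl, CharTwo.add_self_eq_zero, sgn_zero, one_add_one_eq_two], prod_const]
  · push Not at h
    obtain ⟨l, hl, e⟩ := h
    refine prod_eq_zero hl ?_
    rw [sgn, if_neg fun k => e (CharTwo.add_eq_zero.1 k).symm, add_neg_cancel]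

/-- equidistribution in a piece -/
theorem equi_piece (hr : Rep r S) {X T T' : Finset ℕ} {n j : ℕ} {L κ : ℝ} (hE : Equi pl X n L κ)
    {H : Subgroup GQ} (hH : IsOpen (H : Set GQ)) (hi : H.index ≤ n) (hN : H.Normal)
    (hK : H ≤ hr.Kn j) {ξ : GQ → ZMod 2} (hξ : Ch H ξ) (hL : ∑ l ∈ T', Real.log l ≤ L)
    (hu : UnS T' H) (hv : Un (· ∉ T') ξ) (h2 : 2 ∈ T') (hT : T ⊆ T') {h : GQ} (hh : h ∈ H)
    (h1 : ξ h ≠ 0) (h0 : ∀ d, nu d h = 0) (s : ℕ → ZMod 2) :
    |∑ x ∈ piece r pl j T X s, chs pl H ξ x| ≤ κ * X.card := by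
  set T0 := T.filter Nat.Prime
  have e1 : ∀ U ∈ T0.powerset,
      |∑ x ∈ X, chs pl H (fun g => ξ g + ∑ l ∈ U, nu l g) x| ≤ κ * X.card := fun U hU => by
    have hc : Ch H fun g => ξ g + ∑ l ∈ U, nu l g := by
      have := add_mem hξ (sum_mem fun l (_ : l ∈ U) => nu_ch l H)
      rw [Ch]
      convert this using 1
      funext g
      simp
    have := hE H _ T' hH hi hc hL hu fun l P ho hl g hg => by
      rw [hv l P ho hl g hg, zero_add]
      refine sum_eq_zero fun q hq => ?_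
      have hq := mem_filter.1 (mem_powerset.1 hU hq)
      refine nu_inert ho (fun k => hl (k ▸ h2)) (fun k => hl ?_) hg
      rw [(Nat.prime_dvd_prime_iff_eq ho.1 hq.2).1 (Int.natCast_dvd_natCast.1 k)]
      exact hT hq.1
    rwa [if_neg fun k => h1 (by simpa [h0] using k h hh), sub_zero] at this
  have e2 : (2 : ℝ) ^ T0.card * ∑ x ∈ piece r pl j T X s, chs pl H ξ x =
      ∑ U ∈ T0.powerset, (∏ l ∈ U, sgn (s l)) *
        ∑ x ∈ X, chs pl H (fun g => ξ g + ∑ l ∈ U, nu l g) x := by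
    simp only [chs_tw H hH, mul_sum, ← mul_assoc]
    rw [sum_comm, piece, sum_filter]
    refine sum_congr rfl fun x _ => ?_
    rw [← sum_mul, ind_eq T0 (fun l => nu l (pl.σ x)) s]
    by_cases k : Tr r j (pl.σ x)
    · simp only [k, true_and, T0, mem_filter, and_imp, ite_mul, zero_mul]
    · have : chs pl H ξ x = 0 := by
        rw [chs]
        exact finsum_eq_zero_of_forall_eq_zero fun c =>
          if_neg fun e => k (hK ((smul_iff hN _ c).1 e))
      simp [this]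
  refine le_of_mul_le_mul_left ?_ (show (0 : ℝ) < 2 ^ T0.card by positivity)
  rw [← abs_of_pos (show (0 : ℝ) < 2 ^ T0.card by positivity), ← abs_mul, e2,
    abs_of_pos (show (0 : ℝ) < 2 ^ T0.card by positivity)]
  refine (abs_sum_le_sum_abs _ _).trans ((sum_le_card_nsmul _ _ (κ * X.card) fun U hU => ?_).trans
    (by simp))
  rw [abs_mul, abs_prod, prod_congr rfl fun l _ => abs_sgn (s l), prod_const_one, one_mul]
  exact e1 U hU

theorem sum_quot {H K : Subgroup GQ} (h : H ≤ K) [Fintype (GQ ⧸ H)] [Fintype (GQ ⧸ K)] :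
    ∃ n : ℝ, 1 ≤ n ∧ ∀ f : GQ ⧸ K → ℝ,
      ∑ c : GQ ⧸ H, f (QuotientGroup.mk c.out) = n * ∑ γ, f γ := by
  let e := Subgroup.quotientEquivProdOfLE h
  have : Finite (K ⧸ H.subgroupOf K) :=
    Finite.of_surjective (fun c => (e c).2) (Prod.snd_surjective.comp e.surjective)
  haveI := Fintype.ofFinite (K ⧸ H.subgroupOf K)
  refine ⟨Fintype.card (K ⧸ H.subgroupOf K), by exact_mod_cast Fintype.card_pos, fun f => ?_⟩
  have k : ∀ c : GQ ⧸ H, (QuotientGroup.mk c.out : GQ ⧸ K) = (e c).1 := fun c => by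
    conv_rhs => rw [← c.out_eq']
    rfl
  simp only [k]
  rw [e.sum_comp fun z => f z.1, Fintype.sum_prod_type, mul_sum]
  simp

theorem index_le {H : Subgroup GQ} {F : Type} [Finite F] (f : GQ → F)
    (h : ∀ g g', f g = f g' → g⁻¹ * g' ∈ H) : H.index ≤ Nat.card F :=
  Nat.card_le_card_of_injective (fun c : GQ ⧸ H => f c.out) fun c c' k => by
    rw [← c.out_eq', ← c'.out_eq']
    exact QuotientGroup.eq.2 (h _ _ k)

variable {ι : Type} [Fintype ι] [DecidableEq ι] {A : Finset ι}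

/-- the sign attached to a system, an element and a conjugating element -/
def Gf (r : Rp) (A : Finset ι) (ν : ι → GQ → ZMod 2) (C : Finset ι → GQ → W) (e : W) (σ t : GQ) :
    ℝ := if Low r A ν C σ then sgn (wp (rb r t⁻¹ *ᵥ C A σ) e) else 0

theorem abs_Gf (ν : ι → GQ → ZMod 2) (C : Finset ι → GQ → W) (e : W) (σ t : GQ) :
    |Gf r A ν C e σ t| ≤ 1 := by
  unfold Gf
  split_ifs
  · exact (abs_sgn _).le
  · simp

/-- **cancellation** for a family of systems -/
theorem can (hr : Rep r S) {κ : Type} [Fintype κ] {ν : κ → ι → GQ → ZMod 2}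
    {C : κ → Finset ι → GQ → W} (sy : ∀ w, Sy r A (ν w) (C w)) (e : W) {X T T' : Finset ℕ}
    {n j : ℕ} {L δ : ℝ} (hE : Equi pl X n L δ) (hj : 1 ≤ j)
    (hn : (hr.Kn j).index * Nat.card (κ → (ι → ZMod 2) × (Finset ι → W)) ≤ n)
    (hL : ∑ l ∈ T', Real.log l ≤ L) (hS : S ⊆ T') (hT : T ⊆ T')
    (un : ∀ (l : ℕ) (P : Ideal (𝓞 Qb)), Ov l P → l ∉ T' → ∀ g, Inert P g →
      ∀ w, (∀ i ∈ A, ν w i g = 0) ∧ ∀ U ⊆ A, C w U g = 0)
    {h : GQ} (h1 : h ∈ hr.Kn j) (h2 : ∀ w, Low r A (ν w) (C w) h) (h3 : ∀ d, nu d h = 0)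
    (h4 : ∑ w, wp (C w A h) e ≠ 0) (s : ℕ → ZMod 2) [Fintype (GQ ⧸ hr.Kn 1)] :
    |∑ q ∈ piece r pl j T X s, ∑ γ : GQ ⧸ hr.Kn 1,
      ∏ w, Gf r A (ν w) (C w) e (pl.σ q) γ.out| ≤ δ * X.card := by
  let H : Subgroup GQ := hr.Kn j ⊓ ⨅ w, (sy w).low hr
  have mem : ∀ g, g ∈ H ↔ Tr r j g ∧ ∀ w, Low r A (ν w) (C w) g := fun g =>
    and_congr Iff.rfl Subgroup.mem_iInf
  have hH : IsOpen (H : Set GQ) := by
    rw [Subgroup.coe_inf, Subgroup.coe_iInf]
    exact (hr.Kn_open j).inter (isOpen_iInter_of_finite fun w => (sy w).low_open hr)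
  have hN : H.Normal := ⟨fun g hg t => (mem _).2 ⟨hr.tr_conj ((mem g).1 hg).1 t,
    fun w => ((sy w).low_conj hr (((mem g).1 hg).2 w) t).1⟩⟩
  haveI := (hr.Kn j).quotient_finite_of_isOpen (hr.Kn_open j)
  have hi : H.index ≤ n := by
    refine (index_le (fun g => ((g : GQ ⧸ hr.Kn j), fun w => (fun i => ν w i g, fun U => C w U g)))
      fun g g' k => ?_).trans (by rw [Nat.card_prod]; exact hn)
    have k1 : g⁻¹ * g' ∈ hr.Kn j := QuotientGroup.eq.1 (congrArg Prod.fst k)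
    have k2 := fun w => congrFun (congrArg Prod.snd k) w
    refine (mem _).2 ⟨k1, fun w => (sy w).low_of_eq hr ?_
      (fun i _ => congrFun (congrArg Prod.fst (k2 w)) i)
      fun U _ => congrFun (congrArg Prod.snd (k2 w)) U⟩
    rw [← mul_inv_cancel_left g g', hr.rb_mul, hr.tr_one_iff.1 (Tr.mono k1 hj), mul_one]
  let ξ : GQ → ZMod 2 := fun g => ∑ w, wp (C w A g) e
  have hξ : Ch H ξ := by
    have : (fun g : H => ξ g) = ∑ w, fun g : H => wp (C w A g) e := by funext g; simp [ξ]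
    rw [Ch, this]
    exact sum_mem fun w _ => ⟨(((sy w).lC A le_rfl).comp fun v => wp v e).comp_continuous
      continuous_subtype_val, fun g t => by
        show wp (C w A ((g : GQ) * t)) e = wp (C w A g) e + wp (C w A t) e
        rw [(sy w).mul (((mem g).1 g.2).2 w).1 le_rfl, wp_add_left]⟩
  have key := equi_piece hr hE hH hi hN inf_le_left hξ hL (fun l P ho hl g hg => (mem g).2
    ⟨hr.Kn_uns j l P ho (fun k => hl (hS k)) g hg, fun w => ⟨⟨hr.tr_one_iff.1
      (hr.Kn_uns 1 l P ho (fun k => hl (hS k)) g hg), (un l P ho hl g hg w).1⟩,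
      fun U hU => (un l P ho hl g hg w).2 U hU.subset⟩⟩)
    (fun l P ho hl g hg => sum_eq_zero fun w _ => by
      rw [(un l P ho hl g hg w).2 A le_rfl, wp_zero_left]) (hS hr.two) hT
    ((mem h).2 ⟨h1, h2⟩) h4 h3 s
  haveI := H.quotient_finite_of_isOpen hH
  haveI := Fintype.ofFinite (GQ ⧸ H)
  obtain ⟨c, hc, e1⟩ := sum_quot (K := hr.Kn 1) (H := H) fun g hg => ((mem g).1 hg).1.mono hj
  have e2 : ∀ q ∈ piece r pl j T X s, chs pl H ξ q =
      c * ∑ γ : GQ ⧸ hr.Kn 1, ∏ w, Gf r A (ν w) (C w) e (pl.σ q) γ.out := fun q hq => by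
    rw [← e1, chs, finsum_eq_sum_of_fintype]
    refine sum_congr rfl fun t _ => ?_
    split_ifs with k <;> rw [smul_iff hN] at k
    · rw [sgn_sum]
      refine prod_congr rfl fun w _ => ?_
      have k1 := ((mem _).1 k).2 w
      have k2 := ((sy w).low_conj hr k1 t.out⁻¹).2
      obtain ⟨u, hu⟩ := QuotientGroup.mk_out_eq_mul (hr.Kn 1) t.out
      rw [inv_inv] at k2
      rw [Gf, if_pos k1, k2, hu, _root_.mul_inv_rev, hr.rb_mul,
        hr.tr_one_iff.1 (inv_mem u.2 : _ ∈ hr.Kn 1), one_mul]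
    · have : ∃ w, ¬ Low r A (ν w) (C w) (pl.σ q) := by
        by_contra! k2
        exact k ((mem _).2 ⟨(mem_filter.1 hq).2.1, k2⟩)
      obtain ⟨w, hw⟩ := this
      exact (prod_eq_zero (mem_univ w) (if_neg hw)).symm
  rw [sum_congr rfl e2, ← mul_sum, abs_mul, abs_of_pos (by linarith : 0 < c)] at key
  exact (le_mul_of_one_le_left (abs_nonneg _) hc).trans key

end Vale.Agent.P004S.Lv
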