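import Vale.Agent.P004S.Lv.Cube

/-!
# P004, block SMITH, row LEV: cubes of Selmer cocycles of one colour, closeness and reflection
-/

set_option linter.all false

noncomputable section

namespace Vale.Agent.P004S.Lv

open NumberField Matrix Finset
open Vale.Agent.P022 (Qb GQ IsConj)
open Vale.Agent.P027M.S (Inert)
open Vale.Agent.P022D.W (dec)
open Vale.Agent.P022E.GW (Ov Fb Gn Ch)
open Cb

variable {ι : Type} [Fintype ι] [DecidableEq ι] {r : Rp} {S : Finset ℕ} {Λ : Loc r} {pl : Pl}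
  {k : ℕ} {m : ℤ} {X : ι → Finset ℕ} {L : ℝ} {J : Finset ι} {x z : ι → ℕ} {φ : GQ → W}
  {a : Finset ι → GQ → V} {Gd : Finset ι → Prop}

/-- the integer at a corner -/
def dw (m : ℤ) (x z : ι → ℕ) (w : Finset ι) : ℤ := dd m (w.piecewise z x)

/-- the character of a direction -/
def nw (x z : ι → ℕ) (i : ι) (g : GQ) : ZMod 2 := nu (x i) g + nu (z i) g

/-- the local condition at `2` modulo `2 ^ k` -/
def Tw (Λ : Loc r) (d : ℤ) (k : ℕ) (a : GQ → V) : Prop :=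
  ∃ z ∈ Λ.L d, ∀ g ∈ dec Λ.P, ‖a g - z g‖ ≤ (1 / 2) ^ k

theorem Tw.sum {κ : Type} {d : ℤ} (T : Finset κ) (c : κ → ℤ) {f : κ → GQ → V}
    (h : ∀ i ∈ T, Tw Λ d k (f i)) : Tw Λ d k fun g => ∑ i ∈ T, c i • f i g := by
  choose! ζ h1 h2 using h
  refine ⟨∑ i ∈ T, c i • ζ i, sum_mem fun i hi => zsmul_mem (h1 i hi) _, fun g hg => ?_⟩
  rw [Finset.sum_apply, ← sum_sub_distrib]
  refine norm_sum_le' (by positivity) fun i hi => ?_
  rw [Pi.smul_apply, ← smul_sub]
  exact (norm_zsmul_le' _ _).trans (h2 i hi g hg)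

theorem Tw.half {d : ℤ} {b : GQ → V} (h : Tw Λ d (k + 1) b) :
    Tw Λ d k fun g => (1 / 2 : ℚ_[2]) • b g := by
  obtain ⟨ζ, h1, h2⟩ := h
  refine ⟨(1 / 2 : ℚ_[2]) • ζ, (Λ.L d).smul_mem _ h1, fun g hg => ?_⟩
  rw [Pi.smul_apply, ← smul_sub, norm_smul, norm_half]
  have := h2 g hg
  rw [pow_succ] at this
  linarith

/-- the value at the top which completes a cube -/
def tp (T : Finset ι) (f : Finset ι → GQ → V) (g : GQ) : V :=
  ∑ w ∈ T.powerset.erase T, (-((-1 : ℤ) ^ T.card * (-1) ^ w.card)) • f w g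

theorem sub_tp (T : Finset ι) (f : Finset ι → GQ → V) (g : GQ) :
    f T g - tp T f g = (-1 : ℤ) ^ T.card • DD T fun w => f w g := by
  rw [DD_top, smul_add, smul_smul, ← mul_pow, tp, smul_sum, sub_eq_add_neg, ← sum_neg_distrib]
  simp only [neg_smul, neg_neg, smul_smul]
  simp

theorem ss_of_mem {T w : Finset ι} (h : w ∈ T.powerset.erase T) : w ⊂ T :=
  Finset.ssubset_iff_subset_ne.2 ⟨mem_powerset.1 (mem_of_mem_erase h), ne_of_mem_erase h⟩

theorem tor_top {d : ℤ} {D : Set GQ} {T : Finset ι} {f : Finset ι → GQ → V}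
    (h : ∀ w ⊂ T, Tor r d k D (f w)) (h0 : ∀ g ∈ D, ‖DD T fun w => f w g‖ ≤ (1 / 2) ^ k) :
    Tor r d k D (f T) :=
  (Tor.sum _ _ fun w hw => h w (ss_of_mem hw)).near fun g hg => by
    rw [← tp, sub_tp]; exact (norm_zsmul_le' _ _).trans (h0 g hg)

/-- a cube of primes -/
structure Cy (S : Finset ℕ) (m : ℤ) (X : ι → Finset ℕ) (L : ℝ) (J : Finset ι) (x z : ι → ℕ) :
    Prop where
  fam : Fam S m X L
  hx : ∀ i, x i ∈ X i
  hz : ∀ i, z i ∈ X i
  van : ∀ j ∈ J, ∀ (l : ℕ) (P : Ideal (𝓞 Qb)), Ov l P →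
    (l ∈ S ∨ (l : ℤ) ∣ m ∨ ∃ i, i ≠ j ∧ (l = x i ∨ i ∈ J ∧ l = z i)) → ∀ g ∈ dec P, nw x z j g = 0

theorem Cy.mem (h : Cy S m X L J x z) (w : Finset ι) (i : ι) : w.piecewise z x i ∈ X i := by
  by_cases k : i ∈ w
  · rw [piecewise_eq_of_mem _ _ _ k]; exact h.hz i
  · rw [piecewise_eq_of_notMem _ _ _ k]; exact h.hx i

theorem Cy.nu_dw (h : Cy S m X L J x z) (w : Finset ι) (g : GQ) :
    nu (dw m x z w) g = nu m g + ∑ i, nu (w.piecewise z x i) g :=
  nu_dd h.fam.ne (fun i => (h.fam.pm i _ (h.mem w i)).1.ne_zero) g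

theorem Cy.cu (h : Cy S m X L J x z) (T : Finset ι) : Cu T (dw m x z) (nw x z) := fun w _ g => by
  rw [h.nu_dw, h.nu_dw, add_assoc, ← sum_ite_mem_eq w, ← sum_add_distrib]
  refine congrArg _ (sum_congr rfl fun i _ => ?_)
  rw [piecewise_empty]
  split_ifs with k
  · rw [piecewise_eq_of_mem _ _ _ k, nw, ← add_assoc, CharTwo.add_self_eq_zero, zero_add]
  · rw [piecewise_eq_of_notMem _ _ _ k, add_zero]

theorem Cy.nu_eq (h : Cy S m X L J x z) {w w' : Finset ι} (hw : w ⊆ J) (hw' : w' ⊆ J) {g : GQ}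
    (e : ∀ j ∈ J, nw x z j g = 0 ∨ (j ∈ w ↔ j ∈ w')) :
    nu (dw m x z w) g = nu (dw m x z w') g := by
  rw [h.cu J w hw, h.cu J w' hw', ← sum_ite_mem_eq w, ← sum_ite_mem_eq w']
  refine congrArg _ (sum_congr rfl fun i _ => ?_)
  by_cases k : i ∈ J
  · rcases e i k with e | e
    · simp [e]
    · simp only [e]
  · rw [if_neg fun j => k (hw j), if_neg fun j => k (hw' j)]

theorem Cy.dvd (h : Cy S m X L J x z) (w : Finset ι) {l : ℕ} (hl : l.Prime) :
    (l : ℤ) ∣ dw m x z w ↔ (l : ℤ) ∣ m ∨ ∃ i, w.piecewise z x i = l := h.fam.dvd_iff (h.mem w) hl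

theorem Cy.sqf (h : Cy S m X L J x z) (w : Finset ι) : Squarefree (dw m x z w) :=
  h.fam.sqf (h.mem w)

/-- the direction of a prime -/
theorem Cy.dir (h : Cy S m X L J x z) [Nonempty ι] (l : ℕ) : ∃ i, ∀ j, l ∈ X j → j = i := by
  by_cases k : ∃ i, l ∈ X i
  · obtain ⟨i, hi⟩ := k
    exact ⟨i, fun j hj => h.fam.dj j i l hj hi⟩
  · exact ⟨Classical.arbitrary ι, fun j hj => (k ⟨j, hj⟩).elim⟩

theorem Cy.ndvd (h : Cy S m X L J x z) {w : Finset ι} {l : ℕ} (hl : l.Prime) (hm : ¬ (l : ℤ) ∣ m)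
    {i : ι} (hi : ∀ j, l ∈ X j → j = i) (e : w.piecewise z x i ≠ l) : ¬ (l : ℤ) ∣ dw m x z w := by
  rw [h.dvd w hl]
  rintro (k | ⟨j, k⟩)
  · exact hm k
  · exact e (hi j (k ▸ h.mem w j) ▸ k)

theorem nw_conj (j : ι) {c g : GQ} (hc : IsConj c) (hg : g ∈ ({1, c} : Set GQ)) :
    nw x z j g = 0 := by
  rcases hg with rfl | rfl
  · rw [nw, nu_one, nu_one, add_zero]
  · rw [nw, nu_nat_conj _ hc, nu_nat_conj _ hc, add_zero]

theorem Cy.L_eq (h : Cy S m X L J x z) (hr : Rep r S) (Λ : Loc r) {w w' : Finset ι} (hw : w ⊆ J)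
    (hw' : w' ⊆ J) : Λ.L (dw m x z w) = Λ.L (dw m x z w') :=
  Λ.dep _ _ fun g hg => h.nu_eq hw hw' fun j hj => .inl (h.van j hj 2 _ Λ.ov (.inl hr.two) g hg)

/-- Selmer cocycles of one colour at the good corners -/
structure Cx (r : Rp) (S : Finset ℕ) (Λ : Loc r) (pl : Pl) (k : ℕ) (m : ℤ) (X : ι → Finset ℕ)
    (L : ℝ) (J : Finset ι) (x z : ι → ℕ) (φ : GQ → W) (a : Finset ι → GQ → V)
    (Gd : Finset ι → Prop) : Prop extends Cy S m X L J x z where
  rep : Rep r S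
  sel : ∀ w, Gd w → SelK r Λ (k + 1) (dw m x z w) (a w)
  red : ∀ w, Gd w → ∀ g, rv (a w g) = φ g
  tau : ∀ w, Gd w → ∀ i,
    ‖a w (pl.τ (w.piecewise z x i)) - a ∅ (pl.τ (x i))‖ ≤ (1 / 2) ^ (k + 1)
  sep : ∀ F, Pre r S m (dw m x z ∅) F → F ≠ 0 →
    ∃ g, F g ≠ 0 ∧ ∀ w, Gd w → ‖a w g - a ∅ g‖ ≤ (1 / 2) ^ (k + 1)

theorem _root_.Vale.Agent.P004S.SelK.inert {d : ℤ} {b : GQ → V} (h : SelK r Λ k d b) (hr : Rep r S)
    {l : ℕ} {P : Ideal (𝓞 Qb)} (ho : Ov l P) (hS : l ∉ S) (hd : ¬ (l : ℤ) ∣ d) {g : GQ}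
    (hg : Inert P g) : ‖b g‖ ≤ (1 / 2) ^ k := (h.tor l P ho (hr.ne_two hS)).inert hr ho hS hd hg

theorem Cx.tau_half (h : Cx r S Λ pl k m X L J x z φ a Gd) {l : ℕ} (hl : l.Prime) (hS : l ∉ S)
    (hm : ¬ (l : ℤ) ∣ m) {i : ι} (hi : ∀ j, l ∈ X j → j = i) {T : Finset ι} (hT : T.Nonempty)
    (f : Finset ι → Finset ι) (hG : ∀ w ⊆ T, Gd (f w)) {q : ℕ}
    (hq : ∀ w ⊆ T, (f w).piecewise z x i = q) :
    ‖DD T fun w => a (f w) (pl.τ l)‖ ≤ (1 / 2) ^ (k + 1) := by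
  by_cases e : q = l
  · refine norm_DD_near hT (a ∅ (pl.τ (x i))) fun w hw => ?_
    have := h.tau _ (hG w hw) i
    rwa [hq w hw, e] at this
  · exact norm_DD_le fun w hw => (h.sel _ (hG w hw)).inert h.rep (pl.ov l hl) hS
      (h.toCy.ndvd hl hm hi (by rwa [hq w hw])) (pl.τ_inert hl (h.rep.ne_two hS))

theorem pw_erase {T w : Finset ι} {i : ι} (hw : w ⊆ T.erase i) : w.piecewise z x i = x i :=
  piecewise_eq_of_notMem _ _ _ fun k => notMem_erase i T (hw k)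

theorem pw_insert (w : Finset ι) (i : ι) : (insert i w).piecewise z x i = z i :=
  piecewise_eq_of_mem _ _ _ (mem_insert_self i w)

theorem ins_sub {T w : Finset ι} {i : ι} (hi : i ∈ T) (hw : w ⊆ T.erase i) : insert i w ⊆ T :=
  insert_subset hi (hw.trans (erase_subset _ _))

theorem erase_ne {T : Finset ι} (hT : 2 ≤ T.card) (i : ι) : (T.erase i).Nonempty :=
  card_pos.1 (by have := pred_card_le_card_erase (s := T) (a := i); omega)

theorem Cx.tau_Dl (h : Cx r S Λ pl k m X L J x z φ a Gd) {l : ℕ} (hl : l.Prime) (hS : l ∉ S)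
    (hm : ¬ (l : ℤ) ∣ m) {T : Finset ι} (hT : 2 ≤ T.card) (hG : ∀ w ⊆ T, Gd w) :
    ‖Dl a T (pl.τ l)‖ ≤ (1 / 2) ^ (k + 1) := by
  have h0 : T.Nonempty := card_pos.1 (by omega)
  have : Nonempty ι := ⟨h0.choose⟩
  obtain ⟨i, hi⟩ := h.toCy.dir l
  by_cases e : i ∈ T
  · rw [Dl, DD_erase e]
    exact norm_sub_le' (h.tau_half hl hS hm hi (erase_ne hT i) id
      (fun w hw => hG w (hw.trans (erase_subset _ _))) fun w hw => pw_erase hw)
      (h.tau_half hl hS hm hi (erase_ne hT i) (insert i) (fun w hw => hG _ (ins_sub e hw))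
        fun w _ => pw_insert w i)
  · exact h.tau_half hl hS hm hi h0 id hG fun w hw =>
      piecewise_eq_of_notMem _ _ _ fun k => e (hw k)

theorem near_lf {v : V} {e : W} (hv : ‖v‖ ≤ 1) (h : rv v = e) : ‖v - lf e‖ ≤ (1 / 2) ^ 1 := by
  rw [pow_one, ← rv_eq_iff hv (norm_lf e), rv_lf, h]

theorem dv_sub (j : ℕ) (u v : V) : dv j (u - v) = dv j u - dv j v := smul_sub _ _ _

theorem dv_ac (j : ℕ) (d : ℤ) (g : GQ) (u : V) : dv j (ac r d g u) = ac r d g (dv j u) :=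
  (ac_smul r d g _ u).symm

theorem zb_of (hr : Rep r S) {d : ℤ} {b : GQ → V} (hc : Continuous b) (hi : ∀ g, ‖b g‖ ≤ 1)
    (h : ∀ g t, ‖b (g * t) - b g - ac r d g (b t)‖ ≤ 1 / 2) : Zb r fun g => rv (b g) := by
  refine ⟨rv_lc hc, fun g t => ?_⟩
  have k1 := (hr.norm_ac d g (b t)).trans (hi t)
  rw [← hr.rv_ac d g (hi t), ← rv_add (hi g) k1, rv_eq_iff (hi _) (norm_add_le' (hi g) k1),
    ← sub_sub]
  exact h g t

theorem dv_cont (j : ℕ) {b : GQ → V} (hc : Continuous b) : Continuous fun g => dv j (b g) :=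
  (continuous_const_smul _).comp hc

/-- **closeness** -/
theorem Cx.clo (h : Cx r S Λ pl k m X L J x z φ a Gd) (hL : LT) (T : Finset ι) :
    T ⊆ J → T.card ≤ k → (∀ w ⊆ T, Gd w) → ∀ g, ‖Dl a T g‖ ≤ (1 / 2) ^ T.card := by
  induction T using Finset.strongInduction with
  | H T ih =>
  intro hJ hk hG
  have hr := h.rep
  have lo : ∀ U ⊂ T, ∀ g, ‖Dl a U g‖ ≤ (1 / 2) ^ U.card := fun U hU =>
    ih U hU (hU.subset.trans hJ) ((card_le_card hU.subset).trans hk)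
      fun w hw => hG w (hw.trans hU.subset)
  have hc : Continuous (Dl a T) := DD_cont T fun w hw => (h.sel w (hG w hw)).cont
  have coc := fun g t => Dl_coc hr (h.toCy.cu T) le_rfl g t
    (fun w hw => ((h.sel w (hG w hw)).coc g t).trans (half_anti (by omega))) fun U hU => lo U hU t
  suffices H : ∀ j ≤ T.card, ∀ g, ‖Dl a T g‖ ≤ (1 / 2) ^ j from H _ le_rfl
  intro j
  induction j with
  | zero => exact fun _ g => norm_DD_le fun w hw => by simpa using (h.sel w (hG w hw)).int g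
  | succ j ihj =>
  intro hj g
  have h0 : T.Nonempty := card_pos.1 (by omega)
  rcases j.eq_zero_or_pos with rfl | j1
  · exact norm_DD_near h0 (lf (φ g)) fun w hw =>
      near_lf ((h.sel w (hG w hw)).int g) (h.red w (hG w hw) g)
  have hi := fun t => dv_int (ihj (by omega) t)
  have zb : Zb r fun t => rv (dv j (Dl a T t)) :=
    zb_of hr (d := dw m x z T) (dv_cont j hc) hi fun t u => by
      rw [← dv_ac, ← dv_sub, ← dv_sub, ← pow_one (1 / 2 : ℝ), dv_le]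
      exact (coc t u).trans (half_anti hj)
  have pre : Pre r S m (dw m x z ∅) fun t => rv (dv j (Dl a T t)) := by
    refine ⟨zb, fun l P ho hl t ht => hL.un_tau hr pl ho.1 hl.1 zb (rv_dv.2
      ((h.tau_Dl ho.1 hl.1 hl.2 (by omega) hG).trans (half_anti (by omega)))) ho ht,
      fun l P ho hS hm => ?_⟩
    obtain ⟨n, hn⟩ := Tor.DD (d := dw m x z ∅) T fun w hw =>
      ((h.sel w (hG w hw)).tor l P ho (hr.ne_two hS)).congr fun t ht =>
        h.toCy.nu_eq (empty_subset _) (hw.trans hJ) fun i hi =>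
          .inl (h.van i hi l P ho (.inr (.inl hm)) t ht)
    refine ⟨dv j n, fun t ht => ?_⟩
    have e : ‖dv j (Dl a T t) - (ac r (dw m x z ∅) t (dv j n) - dv j n)‖ ≤ 1 / 2 := by
      rw [← dv_ac, ← dv_sub, ← dv_sub, ← pow_one (1 / 2 : ℝ), dv_le]
      exact (hn t ht).trans (half_anti (by omega))
    have e1 : ‖ac r (dw m x z ∅) t (dv j n) - dv j n‖ ≤ 1 := by
      rw [← sub_sub_cancel (dv j (Dl a T t)) (ac r (dw m x z ∅) t (dv j n) - dv j n)]
      exact norm_sub_le' (hi t) (e.trans (by norm_num))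
    exact ⟨e1, ((rv_eq_iff (hi t) e1).2 e).symm⟩
  by_contra hne
  obtain ⟨t, h1, h2⟩ := h.sep _ pre fun e => hne (rv_dv.1 (congrFun e g))
  exact h1 (rv_dv.2 ((norm_DD_near h0 (a ∅ t) fun w hw => h2 w (hG w hw)).trans
    (half_anti (by omega))))

/-- the leading terms form a triangular system -/
theorem Cx.sy (h : Cx r S Λ pl k m X L J x z φ a Gd) (hL : LT) {A : Finset ι} (hJ : A ⊆ J)
    (hk : A.card ≤ k) (hG : ∀ w ⊆ A, Gd w) : Sy r A (nw x z) (Ld a) where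
  add i g t := by rw [nw, nw, nw, nu_mul, nu_mul, add_add_add_comm]
  lc i := (nu_lc _).add (nu_lc _)
  lC T hT := rv_lc (dv_cont _ (DD_cont T fun w hw => (h.sel w (hG w (hw.trans hT))).cont))
  rel T hT g t := Ld_rel h.rep (h.toCy.cu T) g t (fun w hw => ((h.sel w (hG w (hw.trans hT))).coc g
      t).trans (half_anti (by have := card_le_card hT; omega))) fun U hU =>
    h.clo hL U (hU.trans (hT.trans hJ)) ((card_le_card (hU.trans hT)).trans hk)
      fun w hw => hG w (hw.trans (hU.trans hT))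

theorem Cy.dvd_top (h : Cy S m X L J x z) {l : ℕ} (hl : l.Prime) (hd : (l : ℤ) ∣ dw m x z J) :
    ((l : ℤ) ∣ m ∨ ∃ i ∉ J, l = x i) ∨ ∃ i ∈ J, l = z i := by
  rcases (h.dvd J hl).1 hd with e | ⟨i, e⟩
  · exact .inl (.inl e)
  · by_cases k : i ∈ J
    · exact .inr ⟨i, k, by rw [← e, piecewise_eq_of_mem _ _ _ k]⟩
    · exact .inl (.inr ⟨i, k, by rw [← e, piecewise_eq_of_notMem _ _ _ k]⟩)

/-- places at which all corners have the same character -/
theorem Cy.same (h : Cy S m X L J x z) {l : ℕ} {P : Ideal (𝓞 Qb)} (ho : Ov l P)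
    (e : l ∈ S ∨ (l : ℤ) ∣ m ∨ ∃ i ∉ J, l = x i) {w : Finset ι} (hw : w ⊆ J) :
    ∀ g ∈ dec P, nu (dw m x z J) g = nu (dw m x z w) g := fun g hg =>
  h.nu_eq le_rfl hw fun j hj => .inl (h.van j hj l P ho (e.imp_right fun e => e.imp_right
    fun ⟨i, hi, e⟩ => ⟨i, fun k => hi (k ▸ hj), .inl e⟩) g hg)

/-- at a prime of the top corner -/
theorem Cy.same' (h : Cy S m X L J x z) {i : ι} (hi : i ∈ J) {P : Ideal (𝓞 Qb)} (ho : Ov (z i) P)
    {w : Finset ι} (hw : w ⊆ J.erase i) :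
    ∀ g ∈ dec P, nu (dw m x z J) g = nu (dw m x z (insert i w)) g := fun g hg =>
  h.nu_eq le_rfl (ins_sub hi hw) fun j hj => by
    by_cases e : i = j
    · exact .inr (by simp [← e, hi])
    · exact .inl (h.van j hj _ P ho (.inr (.inr ⟨i, e, .inr ⟨hi, rfl⟩⟩)) g hg)

/-- primes which do not divide the top corner -/
theorem Cy.away (h : Cy S m X L J x z) [Nonempty ι] {l : ℕ} (hl : l.Prime)
    (hd : ¬ (l : ℤ) ∣ dw m x z J) : ¬ (l : ℤ) ∣ m ∧ ∃ i, (∀ j, l ∈ X j → j = i) ∧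
      ∀ w ⊆ J, (i ∈ J → i ∈ w) → ¬ (l : ℤ) ∣ dw m x z w := by
  rw [h.dvd J hl, not_or, not_exists] at hd
  obtain ⟨i, hi⟩ := h.dir l
  refine ⟨hd.1, i, hi, fun w hw e => h.ndvd hl hd.1 hi ?_⟩
  have := hd.2 i
  by_cases k : i ∈ J
  · rwa [piecewise_eq_of_mem _ _ _ k, ← piecewise_eq_of_mem _ z x (e k)] at this
  · rwa [piecewise_eq_of_notMem _ _ _ k,
      ← piecewise_eq_of_notMem w z x fun j => k (hw j)] at this

theorem ins_ss {i : ι} (hi : i ∈ J) {w : Finset ι} (hw : w ⊂ J.erase i) : insert i w ⊂ J := by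
  refine Finset.ssubset_iff_subset_ne.2 ⟨ins_sub hi hw.subset, fun e => hw.ne ?_⟩
  rw [← e, erase_insert fun k => notMem_erase i J (hw.subset k)]

/-- **reflection** -/
theorem Cx.refl (h : Cx r S Λ pl k m X L J x z φ a (· ⊂ J)) (hL : LT) (hU : UT)
    (hc : J.card = k + 1) (hk : 1 ≤ k) : Lift r Λ k (dw m x z J) φ := by
  have hr := h.rep
  have h0 : J.Nonempty := card_pos.1 (by omega)
  have : Nonempty ι := ⟨h0.choose⟩
  let b := Function.update a J (tp J a)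
  have b1 : ∀ w ⊂ J, b w = a w := fun w hw => Function.update_of_ne hw.ne _ _
  have b2 : b J = tp J a := Function.update_self _ _ _
  have b0 : ∀ g, DD J (fun w => b w g) = 0 := fun g => by
    have e := sub_tp J b g
    rw [b2, show tp J b g = tp J a g from sum_congr rfl fun w hw => by rw [b1 w (ss_of_mem hw)],
      sub_self] at e
    simpa using e.symm
  have bD : ∀ U ⊂ J, ∀ g, Dl b U g = Dl a U g := fun U hU g =>
    DD_congr fun w hw => by rw [b1 w (hw.trans_ssubset hU)]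
  have lo : ∀ U ⊂ J, ∀ g, ‖Dl b U g‖ ≤ (1 / 2) ^ U.card := fun U hU g => bD U hU g ▸
    h.clo hL U hU.subset (by have := card_lt_card hU; omega) (fun w hw => hw.trans_ssubset hU) g
  have sl : ∀ w ⊂ J, SelK r Λ k (dw m x z w) (b w) := fun w hw =>
    b1 w hw ▸ (h.sel w hw).mono k.le_succ
  have cont : Continuous (b J) := b2 ▸ continuous_finset_sum _ fun w hw =>
    (continuous_const_smul _).comp (h.sel w (ss_of_mem hw)).cont
  have int : ∀ g, ‖b J g‖ ≤ 1 := fun g =>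
    top_le (f := fun w => b w g) (by rw [b0]; simp) fun w hw => (sl w hw).int g
  have coc : ∀ g t, ‖b J (g * t) - b J g - ac r (dw m x z J) g (b J t)‖ ≤ (1 / 2) ^ k := by
    intro g t
    have e := DD_coc hr (h.toCy.cu J) g t fun U hU => lo U hU t
    simp only [Dl, b0, ac_zero, sub_zero] at e
    exact top_le (f := fun w => b w (g * t) - b w g - ac r (dw m x z w) g (b w t))
      (e.trans (half_anti (by omega))) fun w hw => (sl w hw).coc g t
  have half : ∀ i ∈ J, ∀ g, ‖DD (J.erase i) fun w => b (insert i w) g‖ ≤ (1 / 2) ^ k := by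
    intro i hi g
    have e := DD_erase hi fun w => b w g
    rw [b0, eq_comm, sub_eq_zero] at e
    rw [← e]
    exact (lo _ (erase_ssubset hi) g).trans (half_anti (by rw [card_erase_of_mem hi]; omega))
  have same : ∀ D : Set GQ, (∀ w ⊂ J, Tor r (dw m x z w) k D (b w) ∧
      ∀ g ∈ D, nu (dw m x z J) g = nu (dw m x z w) g) → Tor r (dw m x z J) k D (b J) :=
    fun D hD => tor_top (fun w hw => (hD w hw).1.congr (hD w hw).2) fun g _ => by rw [b0]; simp
  refine ⟨b J, ⟨cont, int, coc, ?_, fun c hc => same _ fun w hw => ⟨(sl w hw).inf c hc,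
    fun g hg => h.toCy.nu_eq le_rfl hw.subset fun j _ => .inl (nw_conj j hc hg)⟩,
    fun l P ho h2 => ?_⟩, fun g => ?_⟩
  · rw [b2]
    refine Tw.sum _ _ fun w hw => ?_
    rw [Tw, h.toCy.L_eq hr Λ le_rfl (ss_of_mem hw).subset]
    exact ((h.sel w (ss_of_mem hw)).mono k.le_succ).two
  · by_cases e : l ∈ S ∨ (l : ℤ) ∣ m ∨ ∃ i ∉ J, l = x i
    · exact same _ fun w hw => ⟨(sl w hw).tor l P ho h2, h.toCy.same ho e hw.subset⟩
    have hS : l ∉ S := fun k => e (.inl k)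
    by_cases hd : (l : ℤ) ∣ dw m x z J
    · obtain ⟨i, hi, rfl⟩ := (h.toCy.dvd_top ho.1 hd).resolve_left fun k => e (.inr k)
      have := tor_top (T := J.erase i) (f := fun w => b (insert i w))
        (fun w hw => ((sl _ (ins_ss hi hw)).tor _ P ho h2).congr (h.toCy.same' hi ho hw.subset))
        fun g _ => half i hi g
      rwa [insert_erase hi] at this
    obtain ⟨-, i, -, hi⟩ := h.toCy.away ho.1 hd
    refine hU r S hr k l _ P _ (h.toCy.sqf J).ne_zero ho hS hd cont.continuousOn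
      (fun g _ => int g) (fun g _ t _ => coc g t) fun g hg => ?_
    by_cases e : i ∈ J
    · have := top_le (T := J.erase i) (f := fun w => b (insert i w) g) (half i e g) fun w hw =>
        (sl _ (ins_ss e hw)).inert hr ho hS (hi _ (ins_ss e hw).subset
          fun _ => mem_insert_self _ _) hg
      rwa [insert_erase e] at this
    · exact top_le (f := fun w => b w g) (by rw [b0]; simp) fun w hw =>
        (sl w hw).inert hr ho hS (hi w hw.subset fun k => (e k).elim) hg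
  · have e : DD J (fun w => b w g - lf (φ g)) = 0 := by
      rw [show (fun w => b w g - lf (φ g)) = (fun w => b w g) - fun _ => lf (φ g) from rfl,
        map_sub, b0, DD_const h0, sub_zero]
    have := top_le (f := fun w => b w g - lf (φ g)) (c := (1 / 2) ^ 1) (by rw [e]; simp)
      fun w hw => near_lf ((sl w hw).int g) (by rw [b1 w hw]; exact h.red w hw g)
    rw [← rv_lf (φ g), rv_eq_iff (int g) (norm_lf _)]
    simpa using this

end Vale.Agent.P004S.Lv
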