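import Vale.Agent.P004S.Bas3
import Vale.Agent.P004S.Cb0

/-!
# P004, block SMITH, row LEV: alternating sums of cocycles over a cube, triangular systems
-/

set_option linter.all false

noncomputable section

namespace Vale.Agent.P004S.Lv

open Matrix Finset
open Vale.Agent.P022 (Qb GQ)
open Cb

variable {ι : Type} [DecidableEq ι] {r : Rp} {S : Finset ℕ}

theorem norm_zsmul_le' (c : ℤ) (v : V) : ‖c • v‖ ≤ ‖v‖ := by
  rw [← Int.cast_smul_eq_zsmul ℚ_[2], norm_smul]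
  exact mul_le_of_le_one_left (norm_nonneg _) (Padic.norm_int_le_one c)

theorem norm_sum_le' {α : Type} {T : Finset α} {f : α → V} {c : ℝ} (hc : 0 ≤ c)
    (h : ∀ i ∈ T, ‖f i‖ ≤ c) : ‖∑ i ∈ T, f i‖ ≤ c :=
  IsUltrametricDist.norm_sum_le_of_forall_le_of_nonneg hc h

theorem norm_DD_le {T : Finset ι} {f : Finset ι → V} {c : ℝ} (h : ∀ w ⊆ T, ‖f w‖ ≤ c) :
    ‖DD T f‖ ≤ c :=
  norm_sum_le' ((norm_nonneg _).trans (h ∅ (empty_subset _))) fun w hw =>
    (norm_zsmul_le' _ _).trans (h w (mem_powerset.1 hw))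

theorem norm_DD_near {T : Finset ι} (hT : T.Nonempty) {f : Finset ι → V} {c : ℝ} (v : V)
    (h : ∀ w ⊆ T, ‖f w - v‖ ≤ c) : ‖DD T f‖ ≤ c := by
  have e : DD T (fun w => f w - v) = DD T f := by
    rw [show (fun w => f w - v) = f - fun _ => v from rfl, map_sub, DD_const hT, sub_zero]
  rw [← e]
  exact norm_DD_le h

theorem top_le {T : Finset ι} {f : Finset ι → V} {c : ℝ} (h0 : ‖DD T f‖ ≤ c)
    (h : ∀ w ⊂ T, ‖f w‖ ≤ c) : ‖f T‖ ≤ c := by
  have hc := (norm_nonneg _).trans h0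
  have e : f T = (-1 : ℤ) ^ T.card • (DD T f -
      ∑ w ∈ T.powerset.erase T, (-1 : ℤ) ^ w.card • f w) := by
    rw [DD_top, add_sub_cancel_right, smul_smul, ← mul_pow]; simp
  rw [e]
  refine (norm_zsmul_le' _ _).trans (norm_sub_le' h0 (norm_sum_le' hc fun w hw =>
    (norm_zsmul_le' _ _).trans (h w ?_)))
  exact Finset.ssubset_iff_subset_ne.2 ⟨mem_powerset.1 (mem_of_mem_erase hw), ne_of_mem_erase hw⟩

theorem DD_erase {T : Finset ι} {i : ι} (h : i ∈ T) (f : Finset ι → V) :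
    DD T f = DD (T.erase i) f - DD (T.erase i) fun w => f (insert i w) := by
  conv_lhs => rw [← insert_erase h, DD_insert (notMem_erase i T)]
  exact map_sub (DD (T.erase i)) f fun w => f (insert i w)

theorem DD_cont {X : Type} [TopologicalSpace X] (T : Finset ι) {f : Finset ι → X → V}
    (h : ∀ w ⊆ T, Continuous (f w)) : Continuous fun x => DD T fun w => f w x := by
  simp only [DD_apply]
  exact continuous_finset_sum _ fun w hw =>
    (continuous_const_smul ((-1 : ℤ) ^ w.card)).comp (h w (mem_powerset.1 hw))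

theorem Tor.DD {d : ℤ} {k : ℕ} {D : Set GQ} (T : Finset ι) {f : Finset ι → GQ → V}
    (h : ∀ w ⊆ T, Tor r d k D (f w)) : Tor r d k D fun g => DD T fun w => f w g :=
  Tor.sum T.powerset _ fun w hw => h w (mem_powerset.1 hw)

/-- the characters of the corners of a cube -/
def Cu (J : Finset ι) (d : Finset ι → ℤ) (ν : ι → GQ → ZMod 2) : Prop :=
  ∀ w ⊆ J, ∀ g, nu (d w) g = nu (d ∅) g + ∑ i ∈ w, ν i g

theorem sg_cu {J : Finset ι} {d : Finset ι → ℤ} {ν : ι → GQ → ZMod 2} (h : Cu J d ν) (g : GQ)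
    {U : Finset ι} : ∀ {w : Finset ι}, Disjoint U w → U ∪ w ⊆ J →
      sg (d (U ∪ w)) g = sg (d U) g * ∏ i ∈ w, (1 - 2 * ((ν i g).val : ℚ_[2])) := by
  intro w
  induction w using Finset.induction_on with
  | empty => simp
  | insert i w hi ih =>
    intro h1 h2
    have h3 : U ∪ w ⊆ J := (union_subset_union_right (subset_insert i w)).trans h2
    rw [disjoint_insert_right] at h1
    rw [prod_insert hi, mul_left_comm, ← ih h1.2 h3, sg_eq, sg_eq, h _ h2, h _ h3, union_insert,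
      sum_insert (by simp [h1.1, hi]), add_left_comm]
    generalize nu (d ∅) g + ∑ j ∈ U ∪ w, ν j g = a
    rcases z2 a with rfl | rfl <;> rcases z2 (ν i g) with e | e <;> rw [e] <;>
      simp only [show (1 + 1 : ZMod 2) = 0 from rfl, add_zero, zero_add, ZMod.val_one,
        ZMod.val_zero] <;> norm_num

/-- **the alternating sum of the twisted actions** -/
theorem DD_ac {J : Finset ι} {d : Finset ι → ℤ} {ν : ι → GQ → ZMod 2} (h : Cu J d ν) (g : GQ)
    (u : Finset ι → V) : DD J (fun w => ac r (d w) g (u w)) =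
      ∑ U ∈ J.powerset, ((2 : ℚ_[2]) ^ (J \ U).card * ∏ i ∈ J \ U, ((ν i g).val : ℚ_[2])) •
        ac r (d U) g (DD U u) := by
  let e : V →+ ℚ_[2] →+ V := (smulAddHom ℚ_[2] V).flip
  have e1 := DD_mul e J (fun w => mt r g *ᵥ u w) fun w => sg (d w) g
  refine e1.trans (sum_congr rfl fun U hU => ?_)
  have hU' := mem_powerset.1 hU
  have e2 : DD (J \ U) (fun w => sg (d (U ∪ w)) g) =
      sg (d U) g * ((2 : ℚ_[2]) ^ (J \ U).card * ∏ i ∈ J \ U, ((ν i g).val : ℚ_[2])) := by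
    rw [DD_congr (g := fun w => sg (d U) g * ∏ i ∈ w, (1 - 2 * ((ν i g).val : ℚ_[2])))
      fun w hw => sg_cu h g (disjoint_sdiff.mono_right hw)
        (union_subset hU' (hw.trans sdiff_subset))]
    have := DD_map (AddMonoidHom.mulLeft (sg (d U) g)) (J \ U)
      fun w => ∏ i ∈ w, (1 - 2 * ((ν i g).val : ℚ_[2]))
    rw [DD_chi] at this
    refine this.trans ?_
    simp [prod_mul_distrib]
  have e3 := DD_map (mulVecLin (mt r g)).toAddMonoidHom U u
  rw [e2]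
  change (sg (d U) g * _) • DD U (fun w => mt r g *ᵥ u w) = _
  rw [show DD U (fun w => mt r g *ᵥ u w) = mt r g *ᵥ DD U u from e3, ac, smul_smul, mul_comm]

theorem norm_co_le (T : Finset ι) (ν : ι → ZMod 2) :
    ‖∏ i ∈ T, ((ν i).val : ℚ_[2])‖ ≤ 1 := by
  rw [norm_prod]
  exact prod_le_one (fun _ _ => norm_nonneg _) fun _ _ => norm_val_le _

theorem rd_prod (T : Finset ι) (ν : ι → ZMod 2) :
    rd (∏ i ∈ T, ((ν i).val : ℚ_[2])) = ∏ i ∈ T, ν i := by
  induction T using Finset.induction_on with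
  | empty => simpa using rd_one
  | insert i T hi ih =>
    rw [prod_insert hi, prod_insert hi, rd_mul (norm_val_le _) (norm_co_le _ _), rd_val, ih]

section

variable {J : Finset ι} {d : Finset ι → ℤ} {ν : ι → GQ → ZMod 2} {a : Finset ι → GQ → V}

/-- alternating sums of cochains -/
def Dl (a : Finset ι → GQ → V) (T : Finset ι) (g : GQ) : V := DD T fun w => a w g

theorem DD_def (h : Cu J d ν) (g k : GQ) :
    DD J (fun w => a w (g * k) - a w g - ac r (d w) g (a w k)) = Dl a J (g * k) - Dl a J g -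
      ∑ U ∈ J.powerset, ((2 : ℚ_[2]) ^ (J \ U).card * ∏ i ∈ J \ U, ((ν i g).val : ℚ_[2])) •
        ac r (d U) g (Dl a U k) := by
  have e1 := map_sub (DD J) ((fun w => a w (g * k)) - fun w => a w g : Finset ι → V)
    fun w => ac r (d w) g (a w k)
  rw [map_sub (DD J) (fun w => a w (g * k)) fun w => a w g, DD_ac h g fun w => a w k] at e1
  exact e1

theorem term_le (hr : Rep r S) {U : Finset ι} (hU : U ⊆ J) (g : GQ) {v : V}
    (hv : ‖v‖ ≤ (1 / 2) ^ U.card) :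
    ‖((2 : ℚ_[2]) ^ (J \ U).card * ∏ i ∈ J \ U, ((ν i g).val : ℚ_[2])) • ac r (d U) g v‖ ≤
      (1 / 2) ^ J.card := by
  rw [norm_smul, norm_mul, norm_two_pow, ← card_sdiff_add_card_eq_card hU, pow_add]
  exact mul_le_mul (mul_le_of_le_one_right (by positivity) (norm_co_le _ _))
    ((hr.norm_ac _ _ _).trans hv) (norm_nonneg _) (by positivity)

/-- the defect of the top alternating sum -/
theorem DD_coc (hr : Rep r S) (h : Cu J d ν) (g k : GQ)
    (hD : ∀ U ⊂ J, ‖Dl a U k‖ ≤ (1 / 2) ^ U.card) :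
    ‖DD J (fun w => a w (g * k) - a w g - ac r (d w) g (a w k)) -
      (Dl a J (g * k) - Dl a J g - ac r (d J) g (Dl a J k))‖ ≤ (1 / 2) ^ J.card := by
  rw [DD_def h, ← add_sum_erase _ _ (mem_powerset_self J), sdiff_self]
  simp only [bot_eq_empty, card_empty, pow_zero, prod_empty, mul_one, one_smul]
  rw [show ∀ x y z : V, x - (y + z) - (x - y) = -z from fun x y z => by abel, norm_neg]
  refine norm_sum_le' (by positivity) fun U hU => ?_
  have h1 := mem_powerset.1 (mem_of_mem_erase hU)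
  exact term_le hr h1 g (hD U (Finset.ssubset_iff_subset_ne.2 ⟨h1, ne_of_mem_erase hU⟩))

/-- the top alternating sum is a cocycle -/
theorem Dl_coc (hr : Rep r S) (h : Cu J d ν) {n : ℕ} (hn : n ≤ J.card) (g k : GQ)
    (hc : ∀ w ⊆ J, ‖a w (g * k) - a w g - ac r (d w) g (a w k)‖ ≤ (1 / 2) ^ n)
    (hD : ∀ U ⊂ J, ‖Dl a U k‖ ≤ (1 / 2) ^ U.card) :
    ‖Dl a J (g * k) - Dl a J g - ac r (d J) g (Dl a J k)‖ ≤ (1 / 2) ^ n := by
  rw [← sub_sub_cancel (DD J fun w => a w (g * k) - a w g - ac r (d w) g (a w k))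
    (Dl a J (g * k) - Dl a J g - ac r (d J) g (Dl a J k))]
  exact norm_sub_le' (norm_DD_le hc) ((DD_coc hr h g k hD).trans (half_anti hn))

/-- division by a power of two -/
def dv (j : ℕ) (v : V) : V := ((2 : ℚ_[2]) ^ j)⁻¹ • v

theorem norm_dv (j : ℕ) (v : V) : ‖dv j v‖ = 2 ^ j * ‖v‖ := by
  rw [dv, norm_smul, norm_inv, norm_two_pow]; simp

theorem dv_le {j n : ℕ} {v : V} : ‖dv j v‖ ≤ (1 / 2) ^ n ↔ ‖v‖ ≤ (1 / 2) ^ (j + n) := by
  rw [norm_dv, pow_add, one_div_pow (2 : ℝ) j, one_div_mul_eq_div, le_div_iff₀ (by positivity),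
    mul_comm]

theorem dv_int {j : ℕ} {v : V} (h : ‖v‖ ≤ (1 / 2) ^ j) : ‖dv j v‖ ≤ 1 := by
  simpa using (dv_le (n := 0)).2 h

theorem rv_dv {j : ℕ} {v : V} : rv (dv j v) = 0 ↔ ‖v‖ ≤ (1 / 2) ^ (j + 1) := by
  rw [rv_eq_zero, ← dv_le, pow_one]

theorem rv_sum {α : Type} (T : Finset α) {f : α → V} (h : ∀ i ∈ T, ‖f i‖ ≤ 1) :
    rv (∑ i ∈ T, f i) = ∑ i ∈ T, rv (f i) := by
  classical
  induction T using Finset.induction_on with
  | empty => simpa using rv_zero
  | insert i T hi ih =>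
    have h' := fun j hj => h j (mem_insert_of_mem hj)
    rw [sum_insert hi, sum_insert hi, rv_add (h i (mem_insert_self _ _))
      (norm_sum_le' zero_le_one h'), ih h']

/-- the leading terms -/
def Ld (a : Finset ι → GQ → V) (T : Finset ι) (g : GQ) : W := rv (dv T.card (Dl a T g))

theorem Ld_rel (hr : Rep r S) (h : Cu J d ν) (g k : GQ)
    (hc : ∀ w ⊆ J, ‖a w (g * k) - a w g - ac r (d w) g (a w k)‖ ≤ (1 / 2) ^ (J.card + 1))
    (hD : ∀ U ⊆ J, ∀ x, ‖Dl a U x‖ ≤ (1 / 2) ^ U.card) :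
    Ld a J (g * k) = Ld a J g +
      ∑ U ∈ J.powerset, (∏ i ∈ J \ U, ν i g) • (rb r g *ᵥ Ld a U k) := by
  have e := norm_DD_le hc
  rw [DD_def h, ← dv_le (j := J.card) (n := 1), pow_one] at e
  let t : Finset ι → V := fun U => (∏ i ∈ J \ U, ((ν i g).val : ℚ_[2])) •
    ac r (d U) g (dv U.card (Dl a U k))
  have h1 : ∀ U ∈ J.powerset, ‖ac r (d U) g (dv U.card (Dl a U k))‖ ≤ 1 := fun U hU =>
    (hr.norm_ac _ _ _).trans (dv_int (hD U (mem_powerset.1 hU) k))
  have ht : ∀ U ∈ J.powerset, ‖t U‖ ≤ 1 := fun U hU => by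
    rw [norm_smul]; exact mul_le_one₀ (norm_co_le _ _) (norm_nonneg _) (h1 U hU)
  have e2 : ∑ U ∈ J.powerset, (∏ i ∈ J \ U, ν i g) • (rb r g *ᵥ Ld a U k) =
      rv (∑ U ∈ J.powerset, t U) := by
    rw [rv_sum _ ht]
    refine sum_congr rfl fun U hU => ?_
    rw [rv_smul (norm_co_le _ _) (h1 U hU), rd_prod,
      hr.rv_ac _ _ (dv_int (hD U (mem_powerset.1 hU) k)), Ld]
  have h2 := norm_sum_le' zero_le_one ht
  rw [e2, Ld, Ld, ← rv_add (dv_int (hD J le_rfl g)) h2, rv_eq_iff (dv_int (hD J le_rfl _))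
    (norm_add_le' (dv_int (hD J le_rfl g)) h2)]
  refine le_of_eq_of_le (congrArg _ ?_) e
  simp only [dv, smul_sub, smul_add, smul_sum, sub_sub]
  refine congrArg _ (congrArg _ (sum_congr rfl fun U hU => ?_))
  simp only [t, dv, ac_smul, smul_smul]
  refine congrArg (· • _) ?_
  rw [← card_sdiff_add_card_eq_card (mem_powerset.1 hU), pow_add]
  field_simp

end

/-! ### triangular systems -/

/-- a cocycle with values in `W [t] / (t ^ 2)` -/
structure Sy (r : Rp) (A : Finset ι) (ν : ι → GQ → ZMod 2) (C : Finset ι → GQ → W) : Prop where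
  add : ∀ i g h, ν i (g * h) = ν i g + ν i h
  lc : ∀ i, IsLocallyConstant (ν i)
  lC : ∀ T ⊆ A, IsLocallyConstant (C T)
  rel : ∀ T ⊆ A, ∀ g h, C T (g * h) = C T g +
    ∑ U ∈ T.powerset, (∏ i ∈ T \ U, ν i g) • (rb r g *ᵥ C U h)

/-- elements which act trivially -/
def Tv (r : Rp) (A : Finset ι) (ν : ι → GQ → ZMod 2) (g : GQ) : Prop :=
  rb r g = 1 ∧ ∀ i ∈ A, ν i g = 0

/-- elements with trivial lower terms -/
def Low (r : Rp) (A : Finset ι) (ν : ι → GQ → ZMod 2) (C : Finset ι → GQ → W) (g : GQ) : Prop :=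
  Tv r A ν g ∧ ∀ T ⊂ A, C T g = 0

variable {A : Finset ι} {ν : ι → GQ → ZMod 2} {C : Finset ι → GQ → W}

theorem sum_top {T : Finset ι} (f : Finset ι → W) (h : ∀ U ⊂ T, f U = 0) :
    ∑ U ∈ T.powerset, f U = f T :=
  sum_eq_single_of_mem T (mem_powerset_self T) fun U hU k =>
    h U (Finset.ssubset_iff_subset_ne.2 ⟨mem_powerset.1 hU, k⟩)

theorem Sy.nu_one (s : Sy r A ν C) (i : ι) : ν i 1 = 0 := by
  have := s.add i 1 1
  rw [one_mul] at this
  exact left_eq_add.1 this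

theorem Sy.nu_inv (s : Sy r A ν C) (i : ι) (g : GQ) : ν i g⁻¹ = ν i g := by
  have h := s.add i g⁻¹ g
  rw [inv_mul_cancel, s.nu_one] at h
  revert h; generalize ν i g⁻¹ = a; generalize ν i g = b; revert a b; decide

theorem Sy.mul (s : Sy r A ν C) {n : GQ} (hn : Tv r A ν n) {T : Finset ι} (hT : T ⊆ A) (h : GQ) :
    C T (n * h) = C T n + C T h := by
  rw [s.rel T hT, sum_top, sdiff_self, hn.1, one_mulVec]
  · simp
  · intro U hU
    obtain ⟨i, hi, k⟩ := exists_of_ssubset hU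
    rw [prod_eq_zero (mem_sdiff.2 ⟨hi, k⟩) (hn.2 i (hT hi)), zero_smul]

theorem Sy.tv_one (s : Sy r A ν C) : Tv r A ν 1 := ⟨rb_one r, fun i _ => s.nu_one i⟩

theorem Sy.one (s : Sy r A ν C) {T : Finset ι} (hT : T ⊆ A) : C T 1 = 0 := by
  have := s.mul s.tv_one hT 1
  rw [one_mul] at this
  exact left_eq_add.1 this

theorem Sy.tv_mul (s : Sy r A ν C) (hr : Rep r S) {g h : GQ} (hg : Tv r A ν g) (hh : Tv r A ν h) :
    Tv r A ν (g * h) :=
  ⟨by rw [hr.rb_mul, hg.1, hh.1, one_mul], fun i hi => by rw [s.add, hg.2 i hi, hh.2 i hi, add_zero]⟩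

theorem Sy.tv_inv (s : Sy r A ν C) (hr : Rep r S) {g : GQ} (hg : Tv r A ν g) : Tv r A ν g⁻¹ :=
  ⟨hr.tr_one_iff.1 (hr.tr_inv (hr.tr_one_iff.2 hg.1)), fun i hi => (s.nu_inv i g).trans (hg.2 i hi)⟩

theorem Sy.tv_conj (s : Sy r A ν C) (hr : Rep r S) {n : GQ} (hn : Tv r A ν n) (g : GQ) :
    Tv r A ν (g * n * g⁻¹) :=
  ⟨hr.tr_one_iff.1 (hr.tr_conj (hr.tr_one_iff.2 hn.1) g), fun i hi => by
    rw [s.add, s.add, s.nu_inv, hn.2 i hi, add_zero, CharTwo.add_self_eq_zero]⟩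

theorem Sy.inv (s : Sy r A ν C) {n : GQ} (hn : Tv r A ν n) {T : Finset ι} (hT : T ⊆ A) :
    C T n⁻¹ = -C T n := by
  have := s.mul hn hT n⁻¹
  rw [mul_inv_cancel, s.one hT] at this
  exact (neg_eq_of_add_eq_zero_right this.symm).symm

theorem Sy.conj (s : Sy r A ν C) (hr : Rep r S) {n : GQ} (hn : Tv r A ν n) (g : GQ) {T : Finset ι}
    (hT : T ⊆ A) : C T (g * n * g⁻¹) =
      ∑ U ∈ T.powerset, (∏ i ∈ T \ U, ν i g) • (rb r g *ᵥ C U n) := by
  have h1 := s.mul (s.tv_conj hr hn g) hT g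
  rw [inv_mul_cancel_right, s.rel T hT, add_comm] at h1
  exact (add_right_cancel h1).symm

theorem Sy.low_conj (s : Sy r A ν C) (hr : Rep r S) {n : GQ} (hn : Low r A ν C n) (g : GQ) :
    Low r A ν C (g * n * g⁻¹) ∧ C A (g * n * g⁻¹) = rb r g *ᵥ C A n := by
  refine ⟨⟨s.tv_conj hr hn.1 g, fun T hT => ?_⟩, ?_⟩
  · rw [s.conj hr hn.1 g hT.subset]
    exact sum_eq_zero fun U hU => by
      rw [hn.2 U (lt_of_le_of_lt (mem_powerset.1 hU) hT), mulVec_zero, smul_zero]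
  · rw [s.conj hr hn.1 g le_rfl, sum_top]
    · simp
    · intro U hU
      rw [hn.2 U hU, mulVec_zero, smul_zero]

/-- the subgroup of the elements with trivial lower terms -/
def Sy.low (s : Sy r A ν C) (hr : Rep r S) : Subgroup GQ where
  carrier := {g | Low r A ν C g}
  mul_mem' {g h} hg hh := ⟨s.tv_mul hr hg.1 hh.1, fun T hT => by
    rw [s.mul hg.1 hT.subset, hg.2 T hT, hh.2 T hT, add_zero]⟩
  one_mem' := ⟨s.tv_one, fun T hT => s.one hT.subset⟩
  inv_mem' {g} hg := ⟨s.tv_inv hr hg.1, fun T hT => by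
    rw [s.inv hg.1 hT.subset, hg.2 T hT, neg_zero]⟩

theorem Sy.low_open (s : Sy r A ν C) (hr : Rep r S) : IsOpen (s.low hr : Set GQ) := by
  have e : (s.low hr : Set GQ) = ({g | rb r g = 1} ∩ ⋂ i ∈ A, {g | ν i g = 0}) ∩
      ⋂ T ∈ A.ssubsets, {g | C T g = 0} := by
    ext g
    simp only [Set.mem_inter_iff, Set.mem_iInter, Set.mem_setOf_eq, mem_ssubsets]
    rfl
  rw [e]
  exact ((hr.rb_lc.isOpen_fiber 1).inter
    (isOpen_biInter_finset fun i _ => (s.lc i).isOpen_fiber 0)).inter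
    (isOpen_biInter_finset fun T hT => (s.lC T (mem_ssubsets.1 hT).subset).isOpen_fiber 0)

theorem Sy.low_of_eq (s : Sy r A ν C) (hr : Rep r S) {g g' : GQ} (h1 : rb r g = rb r g')
    (h2 : ∀ i ∈ A, ν i g = ν i g') (h3 : ∀ T ⊆ A, C T g = C T g') : g⁻¹ * g' ∈ s.low hr := by
  refine ⟨⟨by rw [hr.rb_mul, ← h1, ← hr.rb_mul, inv_mul_cancel, rb_one], fun i hi => by
    rw [s.add, s.nu_inv, h2 i hi, CharTwo.add_self_eq_zero]⟩, fun T hT => ?_⟩
  rw [s.rel T hT.subset, sum_congr rfl fun U hU => by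
    rw [← h3 U ((mem_powerset.1 hU).trans hT.subset)], ← s.rel T hT.subset, inv_mul_cancel,
    s.one hT.subset]

/-- one commutator -/
theorem Sy.comm (s : Sy r A ν C) (hr : Rep r S) {n g : GQ} (hn : Tv r A ν n) (hg : rb r g = 1)
    {i : ι} (hi : ∀ j ∈ A, j ≠ i → ν j g = 0) {T : Finset ι} (hT : T ⊆ A) :
    C T (g * n * g⁻¹ * n⁻¹) = if i ∈ T then ν i g • C (T.erase i) n else 0 := by
  rw [s.mul (s.tv_conj hr hn g) hT, s.inv hn hT, s.conj hr hn g hT,
    ← add_sum_erase _ _ (mem_powerset_self T), hg]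
  simp only [sdiff_self, bot_eq_empty, prod_empty, one_smul, one_mulVec]
  rw [add_neg_cancel_comm]
  have z : ∀ U ∈ T.powerset.erase T, U ≠ T.erase i → (∏ j ∈ T \ U, ν j g) • C U n = 0 := by
    intro U hU hne
    have h1 := mem_powerset.1 (mem_of_mem_erase hU)
    have : ∃ j ∈ T \ U, j ≠ i := by
      by_contra! k
      by_cases hiU : i ∈ U
      · exact ne_of_mem_erase hU (h1.antisymm fun j hj => by
          by_contra k2
          exact k2 (k j (mem_sdiff.2 ⟨hj, k2⟩) ▸ hiU))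
      · exact hne ((subset_erase.2 ⟨h1, hiU⟩).antisymm fun j hj => by
          by_contra k2
          exact ne_of_mem_erase hj (k j (mem_sdiff.2 ⟨mem_of_mem_erase hj, k2⟩)))
    obtain ⟨j, hj, k⟩ := this
    rw [prod_eq_zero hj (hi j (hT (mem_sdiff.1 hj).1) k), zero_smul]
  split_ifs with k
  · rw [sum_eq_single_of_mem (T.erase i) (mem_erase.2 ⟨(erase_ssubset k).ne,
      mem_powerset.2 (erase_subset _ _)⟩) z, sdiff_erase_self k, prod_singleton]
  · refine sum_eq_zero fun U hU => z U hU ?_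
    rw [erase_eq_of_notMem k]
    exact ne_of_mem_erase hU

/-- **the iterated commutator**, for a family of systems -/
theorem ex_comm (hr : Rep r S) {κ : Type} {ν : κ → ι → GQ → ZMod 2} {C : κ → Finset ι → GQ → W}
    (s : ∀ w, Sy r A (ν w) (C w)) (t : ι → GQ) (n : GQ) (hn : ∀ w, Tv r A (ν w) n)
    (ht : ∀ i ∈ A, rb r (t i) = 1 ∧ ∀ w, ∀ j ∈ A, j ≠ i → ν w j (t i) = 0) (U : Finset ι) :
    U ⊆ A → ∃ h : GQ, (∀ H : Subgroup GQ, H.Normal → n ∈ H → h ∈ H) ∧
      (U.Nonempty → ∀ d, nu d h = 0) ∧ ∀ w, Tv r A (ν w) h ∧ ∀ T ⊆ A,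
        C w T h = if U ⊆ T then (∏ i ∈ U, ν w i (t i)) • C w (T \ U) n else 0 := by
  induction U using Finset.induction_on with
  | empty => exact fun _ => ⟨n, fun _ _ k => k, fun k => absurd k (by simp), fun w =>
      ⟨hn w, fun T _ => by simp⟩⟩
  | insert i U hi ih =>
    intro hU
    obtain ⟨h, h1, -, h3⟩ := ih ((subset_insert i U).trans hU)
    have hA := hU (mem_insert_self i U)
    refine ⟨t i * h * (t i)⁻¹ * h⁻¹, fun H hH k => H.mul_mem (hH.conj_mem _ (h1 H hH k) _)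
      (H.inv_mem (h1 H hH k)), fun _ d => by
        rw [nu_mul, nu_conj, nu_inv, CharTwo.add_self_eq_zero], fun w =>
      ⟨(s w).tv_mul hr ((s w).tv_conj hr (h3 w).1 _) ((s w).tv_inv hr (h3 w).1), fun T hT => ?_⟩⟩
    rw [(s w).comm hr (h3 w).1 (ht i hA).1 ((ht i hA).2 w) hT]
    by_cases k : i ∈ T
    · rw [if_pos k, (h3 w).2 _ ((erase_subset _ _).trans hT), prod_insert hi]
      by_cases k2 : U ⊆ T
      · rw [if_pos (subset_erase.2 ⟨k2, hi⟩), if_pos (insert_subset k k2), smul_smul, sdiff_insert,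
          erase_sdiff_comm]
      · rw [if_neg fun k3 => k2 (k3.trans (erase_subset _ _)), smul_zero,
          if_neg fun k3 => k2 ((subset_insert _ _).trans k3)]
    · rw [if_neg k, if_neg fun k3 => k (k3 (mem_insert_self _ _))]

end Vale.Agent.P004S.Lv
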