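import Vale.Agent.P004S.Lv.Clo

/-!
# P004, block SMITH, row LEV: the leading term at the Frobenius element of the top prime
-/

set_option linter.all false

noncomputable section

namespace Vale.Agent.P004S.Lv

open NumberField Matrix Finset
open Vale.Agent.P022 (Qb GQ IsConj)
open Vale.Agent.P027M.S (Inert)
open Vale.Agent.P022D.W (dec)
open Vale.Agent.P022E.GW (Ov Fb Gn Ch)
open Cb

variable {ι : Type} [Fintype ι] [DecidableEq ι] {r : Rp} {S : Finset ℕ} {Λ : Loc r} {pl : Pl}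
  {k : ℕ} {m : ℤ} {X : ι → Finset ℕ} {L : ℝ} {J : Finset ι} {x z : ι → ℕ} {φ : GQ → W}
  {a : Finset ι → GQ → V} {Gd : Finset ι → Prop}

theorem ex_cj : ∃ c : GQ, IsConj c := by
  let φ : Qb →+* ℂ := (IsAlgClosed.lift (R := ℚ) (S := Qb) (M := ℂ)).toRingHom
  let _ : Algebra Qb ℂ := φ.toAlgebra
  have : IsScalarTower ℚ Qb ℂ := IsScalarTower.of_algebraMap_eq' (Subsingleton.elim _ _)
  exact ⟨(Complex.conjAe.restrictScalars ℚ).restrictNormal Qb, φ,
    AlgEquiv.restrictNormal_commutes (Complex.conjAe.restrictScalars ℚ) Qb⟩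

theorem half_le {n : ℕ} {v : V} (h : ‖v‖ ≤ (1 / 2) ^ (n + 1)) :
    ‖(1 / 2 : ℚ_[2]) • v‖ ≤ (1 / 2) ^ n := by
  rw [norm_smul, norm_half]
  rw [pow_succ] at h
  linarith

theorem Cy.top_dvd (h : Cy S m X L J x z) {i : ι} (hi : i ∈ J) : (z i : ℤ) ∣ dw m x z J :=
  (h.dvd J (h.fam.pm i _ (h.hz i)).1).2 (.inr ⟨i, piecewise_eq_of_mem _ _ _ hi⟩)

theorem Cy.tau_top (h : Cy S m X L J x z) (hr : Rep r S) (pl : Pl) {i : ι} (hi : i ∈ J) :
    pl.τ (z i) ∈ dec (pl.P (z i)) ∧ mt r (pl.τ (z i)) = 1 ∧ nu (dw m x z J) (pl.τ (z i)) = 1 := by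
  obtain ⟨h1, h2, -⟩ := h.fam.pm i _ (h.hz i)
  have h3 := pl.τ_inert h1 (hr.ne_two h2)
  exact ⟨inert_dec h3, hr.mt_inert (pl.ov _ h1) h2 h3, nu_tau (pl.ov _ h1) (hr.ne_two h2) (h.sqf J)
    (h.top_dvd hi) (pl.gn _ h1 (hr.ne_two h2))⟩

theorem Cy.dirz (h : Cy S m X L J x z) (i : ι) : ∀ j, z i ∈ X j → j = i :=
  fun j hj => h.fam.dj j i _ hj (h.hz i)

/-- the lower terms vanish at the Frobenius element of a top prime -/
theorem Cx.low (h : Cx r S Λ pl k m X L J x z φ a (· ⊂ J)) (hL : LT) (hc : J.card = k + 1) {p : ι}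
    (hp : p ∈ J) (tr : Tr r 1 (pl.σ (z p))) (pat : φ (pl.τ (z p)) = 0) :
    Low r (J.erase p) (nw x z) (Ld a) (pl.σ (z p)) := by
  have hr := h.rep
  obtain ⟨h1, h2, h3, -⟩ := h.fam.pm p _ (h.hz p)
  obtain ⟨t1, t2, t3⟩ := h.toCy.tau_top hr pl hp
  have ho := pl.ov _ h1
  refine ⟨⟨hr.tr_one_iff.1 tr, fun i hi => h.van i (mem_of_mem_erase hi) _ _ ho
    (.inr (.inr ⟨p, (ne_of_mem_erase hi).symm, .inr ⟨hp, rfl⟩⟩)) _ (pl.σ_dec h1)⟩,
    fun T hT => rv_dv.2 ?_⟩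
  have hpT : p ∉ T := fun k => notMem_erase p J (hT.subset k)
  have hs := ins_ss hp hT
  have hk : T.card + 1 ≤ k := by
    have := card_lt_card hs
    rw [card_insert_of_notMem hpT] at this
    omega
  have e1 := h.clo hL _ hs.subset (by rwa [card_insert_of_notMem hpT])
    (fun w hw => hw.trans_ssubset hs) (pl.σ (z p))
  rw [Dl, DD_erase (mem_insert_self p T), erase_insert hpT, card_insert_of_notMem hpT] at e1
  have hG : ∀ w ⊆ T, insert p w ⊂ J := fun w hw => ins_ss hp (hw.trans_ssubset hT)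
  have e2 : ‖DD T fun w => a (insert p w) (pl.σ (z p))‖ ≤ (1 / 2) ^ (T.card + 1) := by
    refine ((Tor.DD (d := dw m x z J) T fun w hw => ((h.sel _ (hG w hw)).tor _ _ ho
      (hr.ne_two h2)).congr (h.toCy.same' hp ho (hw.trans hT.subset))).mono
      (hk.trans k.le_succ)).tau t1 t2 t3 ?_ (pl.σ_dec h1) tr
    rcases T.eq_empty_or_nonempty with rfl | h0
    · rw [DD_empty, card_empty, zero_add, pow_one, ← rv_eq_zero, h.red _ (hG _ le_rfl), pat]
    · exact (h.tau_half h1 h2 h3 (h.toCy.dirz p) h0 (insert p) hG fun w _ => pw_insert w p).trans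
        (half_anti (hk.trans k.le_succ))
  rw [Dl, ← sub_add_cancel (DD T fun w => a w (pl.σ (z p)))
    (DD T fun w => a (insert p w) (pl.σ (z p)))]
  exact norm_add_le' e1 e2

/-- **the form** -/
theorem Cx.form (h : Cx r S Λ pl (k + 1) m X L J x z φ a (· ⊂ J)) (hL : LT) (hU : UT) (hO : ONEK)
    (hy : Cyc r) (hc : J.card = k + 2) {p : ι} (hp : p ∈ J) (hne : x p ≠ z p)
    (top : SelK r Λ (k + 2) (dw m x z J) (a J)) (rtop : ∀ g, rv (a J g) = φ g) {b : GQ → V}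
    (hb : SelK r Λ (k + 1) (dw m x z J) b) (tr : ∀ i, Tr r 2 (pl.σ (z i)))
    (pat : ∀ i ∈ J, i ≠ p → rv (b (pl.τ (z i))) = 0) :
    wp (Ld a (J.erase p) (pl.σ (z p))) (rv (b (pl.τ (z p)))) = 0 := by
  have hr := h.rep
  have h0 : J.Nonempty := ⟨p, hp⟩
  have : Nonempty ι := ⟨p⟩
  have sl : ∀ w ⊆ J, SelK r Λ (k + 2) (dw m x z w) (a w) := fun w hw => by
    rcases hw.eq_or_ssubset with rfl | hw
    exacts [top, h.sel w hw]
  have near : ∀ w ⊆ J, ∀ g, ‖a w g - lf (φ g)‖ ≤ (1 / 2) ^ (0 + 1) := fun w hw g => by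
    refine near_lf ((sl w hw).int g) ?_
    rcases hw.eq_or_ssubset with rfl | hw
    exacts [rtop g, h.red w hw g]
  have lo : ∀ U ⊂ J, ∀ g, ‖Dl a U g‖ ≤ (1 / 2) ^ U.card := fun U hU g =>
    h.clo hL U hU.subset (by have := card_lt_card hU; omega) (fun w hw => hw.trans_ssubset hU) g
  have ce : ∀ i ∈ J, (J.erase i).card = k + 1 := fun i hi => by rw [card_erase_of_mem hi]; omega
  have wc : Continuous (Dl a J) := DD_cont J fun w hw => (sl w hw).cont
  have wi : ∀ g, ‖Dl a J g‖ ≤ (1 / 2) ^ (0 + 1) := fun g =>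
    norm_DD_near h0 (lf (φ g)) fun w hw => near w hw g
  have wz := fun g t => Dl_coc hr (h.toCy.cu J) hc.ge g t (fun w hw => (sl w hw).coc g t)
    fun U hU => lo U hU t
  let c : GQ → V := fun g => (1 / 2 : ℚ_[2]) • Dl a J g
  have cc : Continuous c := (continuous_const_smul _).comp wc
  have ci : ∀ g, ‖c g‖ ≤ 1 := fun g => (half_le (wi g)).trans (half_pow_le 0)
  have cz : ∀ g t, ‖c (g * t) - c g - ac r (dw m x z J) g (c t)‖ ≤ (1 / 2) ^ (k + 1) :=
    fun g t => by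
      simp only [c]
      rw [ac_smul, ← smul_sub, ← smul_sub]
      exact half_le (wz g t)
  have iso : ∀ (D : Set GQ) (c' : GQ → V), (∀ g, ‖c' g‖ ≤ 1) → Tor r (dw m x z J) (k + 1) D c' →
      Tor r (dw m x z J) (k + 1) D b → B2k r (k + 1) D (cp r (dw m x z J) c' b) :=
    fun D c' h1 h2 h3 => Tor.iso hr (c := 1) h2 h3 (fun g _ => h1 g) (fun g _ => hb.int g)
      (mul_one _).le
  have same : ∀ D : Set GQ, (∀ w ⊆ J, Tor r (dw m x z w) (k + 2) D (a w) ∧
      ∀ g ∈ D, nu (dw m x z J) g = nu (dw m x z w) g) → Tor r (dw m x z J) (k + 1) D c :=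
    fun D hD => (Tor.DD J fun w hw => (hD w hw).1.congr (hD w hw).2).half
  have upper : ∀ i ∈ J, ∀ P, Ov (z i) P → Tor r (dw m x z J) (k + 2) (dec P)
      fun g => (-1 : ℤ) • DD (J.erase i) fun w => a (insert i w) g := fun i hi P ho =>
    (Tor.DD _ fun w hw => ((sl _ (ins_sub hi hw)).tor _ P ho
      (hr.ne_two (h.fam.pm i _ (h.hz i)).2.1)).congr (h.toCy.same' hi ho hw)).zsmul _
  have split : ∀ i ∈ J, ∀ g, Dl a J g - (-1 : ℤ) • (DD (J.erase i) fun w => a (insert i w) g) =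
      Dl a (J.erase i) g := fun i hi g => by
    rw [Dl, DD_erase hi, Dl, neg_one_zsmul, sub_neg_eq_add, sub_add_cancel]
  have trd : ∀ i, ∀ g ∈ dec (pl.P (z i)), Tr r 2 g := fun i g hg =>
    hL.tr_dec hr pl (h.fam.pm i _ (h.hz i)).1 (h.fam.pm i _ (h.hz i)).2.1 (tr i)
      (pl.ov _ (h.fam.pm i _ (h.hz i)).1) hg
  obtain ⟨p1, p2, p3, -⟩ := h.fam.pm p _ (h.hz p)
  obtain ⟨t1, t2, t3⟩ := h.toCy.tau_top hr pl hp
  have po := pl.ov _ p1
  have sy := h.sy hL (erase_subset p J) (ce p hp).le fun w hw =>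
    hw.trans_ssubset (erase_ssubset hp)
  have tv : ∀ g ∈ dec (pl.P (z p)), Tv r (J.erase p) (nw x z) g := fun g hg =>
    ⟨hr.tr_one_iff.1 ((trd p g hg).mono one_le_two), fun i hi => h.van i (mem_of_mem_erase hi) _ _
      po (.inr (.inr ⟨p, (ne_of_mem_erase hi).symm, .inr ⟨hp, rfl⟩⟩)) g hg⟩
  have key := hO r S hr hy k (z p) (cp r (dw m x z J) c b) (pl.P (z p)) (pl.τ (z p)) (pl.σ (z p))
    (fun g => wp (Ld a (J.erase p) g) (rv (b (pl.τ (z p))))) (nu (dw m x z J))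
    (z2k_cp hr cc hb.cont ci hb.int cz hb.coc) po (hr.ne_two p2) (pl.gn _ p1 (hr.ne_two p2))
    (pl.fb _ p1) ⟨((sy.lC _ le_rfl).comp fun v => wp v (rv (b (pl.τ (z p))))).comp_continuous
      continuous_subtype_val, fun g t => by
        show wp (Ld a _ ((g : GQ) * t)) _ = wp (Ld a _ g) _ + wp (Ld a _ t) _
        rw [sy.mul (tv g g.2) le_rfl, wp_add_left]⟩ (nu_ch _ _) (fun g hg => ?_) ?_
    (fun l hl hlp => ?_) ?_
  · rwa [t3, mul_one] at key
  · have : Ld a (J.erase p) g = 0 := rv_dv.2 (by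
      rw [ce p hp]
      exact norm_DD_le fun w hw => (sl w (hw.trans (erase_subset _ _))).inert hr po p2
        (h.toCy.ndvd p1 p3 (h.toCy.dirz p) (by rwa [pw_erase hw])) hg)
    rw [this, wp_zero_left]
  · refine (iso _ _ (fun g => ?_) (upper p hp _ po).half
      (hb.tor _ _ po (hr.ne_two p2))).near fun g hg t ht => ?_
    · simpa using half_le ((norm_zsmul_le' (-1) _).trans (norm_DD_near (erase_ne (by omega) p)
        (lf (φ g)) fun w hw => near _ (ins_sub hp hw) g))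
    have e1 := dv_int (lo _ (erase_ssubset hp) g)
    have e2 := (hr.norm_ac (dw m x z J) g (b t)).trans (hb.int t)
    have e3 : c g - (1 / 2 : ℚ_[2]) • (-1 : ℤ) • (DD (J.erase p) fun w => a (insert p w) g) =
        (2 : ℚ_[2]) ^ k • dv (J.erase p).card (Dl a (J.erase p) g) := by
      simp only [c]
      rw [← smul_sub, split p hp, ce p hp, dv, smul_smul]
      congr 1
      rw [pow_succ]
      field_simp
    rw [sub_right_comm, cp, cp, ← wp_sub_left, e3, wp_smul_left, ← mul_sub, norm_mul, norm_two_pow,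
      pow_succ]
    refine mul_le_mul_of_nonneg_left ((rd_eq_iff ((norm_wp_le _ _).trans
      (mul_le_one₀ e1 (norm_nonneg _) e2)) (norm_val_le _)).1 ?_) (by positivity)
    rw [rd_val, rd_wp e1 e2, hr.rv_ac _ _ (hb.int t), (tv g hg).1, one_mulVec,
      ((hb.tor _ _ po (hr.ne_two p2)).mono (by omega)).red t1 t2 t3 hb.int ht (trd p t ht),
      wp_smul_right, mul_comm]
    rfl
  · by_cases h2 : l = 2
    · subst h2
      refine ⟨Λ.P, Λ.ov, Λ.iso' hr (Tw.half (Tw.sum J.powerset _ fun w hw => ?_)) hb.two ci hb.int⟩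
      rw [Tw, h.toCy.L_eq hr Λ le_rfl (mem_powerset.1 hw)]
      exact (sl w (mem_powerset.1 hw)).two
    have ho := pl.ov l hl
    refine ⟨pl.P l, ho, ?_⟩
    by_cases e : l ∈ S ∨ (l : ℤ) ∣ m ∨ ∃ i ∉ J, l = x i
    · exact iso _ _ ci (same _ fun w hw => ⟨(sl w hw).tor l _ ho h2, h.toCy.same ho e hw⟩)
        (hb.tor l _ ho h2)
    have hS : l ∉ S := fun k => e (.inl k)
    by_cases hd : (l : ℤ) ∣ dw m x z J
    · obtain ⟨i, hi, rfl⟩ := (h.toCy.dvd_top hl hd).resolve_left fun k => e (.inr k)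
      obtain ⟨s1, s2, s3⟩ := h.toCy.tau_top hr pl hi
      have hW : Tor r (dw m x z J) (k + 1) (dec (pl.P (z i))) (Dl a J) :=
        ((upper i hi _ ho).mono (Nat.le_succ _)).near fun g _ => by
          rw [split i hi, ← ce i hi]; exact lo _ (erase_ssubset hi) g
      exact Tor.iso hr (c := (1 / 2) ^ 1) hW.half (hb.tor _ _ ho h2) (fun g _ => ci g)
        (fun g hg => ((hb.tor _ _ ho h2).mono (by omega)).tau s1 s2 s3
          (by rw [pow_one, ← rv_eq_zero]; exact pat i hi fun k => hlp (k ▸ rfl)) hg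
          ((trd i g hg).mono one_le_two)) (by rw [← pow_add])
    obtain ⟨hm, i, hi, hj⟩ := h.toCy.away hl hd
    have hτ := pl.τ_inert hl h2
    refine iso _ _ ci (hU r S hr _ l _ _ _ (h.toCy.sqf J).ne_zero ho hS hd cc.continuousOn
      (fun g _ => ci g) (fun g _ t _ => cz g t) fun g hg => half_le (hL.small_tau ho h2
        (pl.gn l hl h2) wc (fun g => (wi g).trans (half_pow_le _)) (fun g t hg _ => ?_) ?_ hg))
      (hb.tor l _ ho h2)
    · have := wz g t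
      rwa [ac, hr.mt_inert ho hS hg, sg_of_zero (nu_inert ho h2 hd hg), one_smul,
        one_mulVec] at this
    by_cases e : i ∈ J
    · rw [Dl, DD_erase e]
      exact norm_sub_le' (h.tau_half hl hS hm hi (erase_ne (by omega) i) id
        (fun w hw => hw.trans_ssubset (erase_ssubset e)) fun w hw => pw_erase hw)
        (norm_DD_le fun w hw => (sl _ (ins_sub e hw)).inert hr ho hS
          (hj _ (ins_sub e hw) fun _ => mem_insert_self _ _) hτ)
    · exact norm_DD_le fun w hw => (sl w hw).inert hr ho hS (hj w hw fun k => (e k).elim) hτ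
  · obtain ⟨c₀, hc₀⟩ := ex_cj
    exact ⟨c₀, hc₀, iso _ _ ci (same _ fun w hw => ⟨(sl w hw).inf _ hc₀, fun g hg =>
      h.toCy.nu_eq le_rfl hw fun j _ => .inl (nw_conj j hc₀ hg)⟩) (hb.inf _ hc₀)⟩

end Vale.Agent.P004S.Lv
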