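import Vale.Agent.P004S.HalfB

/-!
# P004, block SMITH, row LEV: the halving lemma with an auxiliary finite average
-/

set_option linter.all false

open Finset Function
open scoped BigOperators Classical

namespace Vale.Agent.P004S.Lv

variable {ι α K Γ : Type} [Fintype ι] [DecidableEq ι]

/-- the first components -/
def pj (z : ι → α × Γ) : ι → α := fun i => (z i).1

/-- the points with second components `o` -/
noncomputable def up (o : Γ) (Y : Finset (ι → α)) : Finset (ι → α × Γ) :=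
  Y.map ⟨fun y i => (y i, o), fun _ _ h => funext fun i => congrArg Prod.fst (congrFun h i)⟩

theorem mem_up {o : Γ} {Y : Finset (ι → α)} {z : ι → α × Γ} :
    z ∈ up o Y ↔ pj z ∈ Y ∧ ∀ i, (z i).2 = o := by
  rw [up, mem_map]
  refine ⟨?_, fun h => ⟨pj z, h.1, funext fun i => Prod.ext rfl (h.2 i).symm⟩⟩
  rintro ⟨y, hy, rfl⟩
  exact ⟨hy, fun _ => rfl⟩

theorem pj_pw (w : Finset ι) (y x : ι → α × Γ) :
    pj (w.piecewise y x) = w.piecewise (pj y) (pj x) := by
  funext i
  by_cases h : i ∈ w <;> simp [pj, h]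

theorem pj_cor (J : Finset ι) (a z : ι → α × Γ) (w : Finset ι) :
    pj (cor J a z w) = cor J (pj a) (pj z) w := by rw [cor, cor, pj_pw, pj_pw]

theorem pj_update (z : ι → α × Γ) (b : ι) (u : α × Γ) :
    pj (update z b u) = update (pj z) b u.1 := by
  funext i
  by_cases h : i = b
  · subst h; simp [pj]
  · simp [pj, update_of_ne h]

theorem cor_univ (a z : ι → α) (w : Finset ι) : cor univ a z w = w.piecewise z a := by
  rw [cor, piecewise_univ]

variable {o : Γ} {Yp : Finset (ι → α)} {col : (ι → α) → K} {a z : ι → α × Γ}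

theorem fa_up {b : ι} (h : Fa univ b (up o Yp) (fun z => col (pj z)) a z) :
    Fa univ b Yp col (pj a) (pj z) ∧ ∀ i ∈ univ.erase b, (z i).2 = o := by
  have e : ∀ i ∈ univ.erase b, (z i).2 = o := fun i hi => by
    simpa [cor_univ] using (mem_up.1 (h.2 {i} (singleton_subset_iff.2 hi)).1).2 i
  refine ⟨⟨fun i hi k => h.1 i hi (Prod.ext k ?_), fun w hw => ?_⟩, e⟩
  · rw [e i hi]
    simpa [cor_univ] using ((mem_up.1 (h.2 ∅ (empty_subset _)).1).2 i).symm
  · rw [← pj_cor, ← pj_cor]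
    exact ⟨(mem_up.1 (h.2 w hw).1).1, (h.2 w hw).2⟩

theorem mo_up (h2 : 2 ≤ Fintype.card ι) (h : Mo univ (up o Yp) (fun z => col (pj z)) a z) :
    Mo univ Yp col (pj a) (pj z) ∧ ∀ i, (z i).2 = o := by
  refine ⟨(mo_iff h2 _ _).2 fun b hb => (fa_up (h.fa hb)).1, fun i => ?_⟩
  obtain ⟨b, hb, k⟩ := exists_mem_ne (s := univ) (lt_of_lt_of_le one_lt_two h2) i
  exact (fa_up (h.fa hb)).2 i (mem_erase.2 ⟨k.symm, mem_univ _⟩)

theorem half_aux (m N n : ℕ) {ε : ℝ} (hε : 0 < ε) : ∃ (L : ℕ) (σ : ℝ), 0 < σ ∧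
    ∀ (ι α K Γ : Type) [Fintype ι] [DecidableEq ι] [Fintype Γ] [Fintype K] (o : Γ)
      (X : ι → Finset α) (b : ι) (Yp Y : Finset (ι → α)) (col : (ι → α) → K)
      (G : (ι → α) → (ι → α) → Γ → ℝ), 2 ≤ Fintype.card ι → Fintype.card ι ≤ m →
      Fintype.card Γ ≤ n → Fintype.card K ≤ N → (∀ i, L + 1 ≤ (X i).card) →
      Yp ⊆ Fintype.piFinset X → Y ⊆ Fintype.piFinset X → (∀ a z γ, |G a z γ| ≤ 1) →
      (∀ a ∈ Fintype.piFinset X, ∀ z ∈ Fintype.piFinset X, Mo univ Yp col a z → z ∈ Y) →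
      (∀ a ∈ Fintype.piFinset X, ∀ z ∈ Yp, Mo univ Yp col a z → G a z o = 1) →
      (∀ a ∈ Fintype.piFinset X, ∀ x ∈ Fintype.piFinset X, ∀ y ∈ Fintype.piFinset X,
        (∀ i ∈ univ.erase b, x i ≠ y i) →
        (∀ w ⊆ univ.erase b, Fa univ b Yp col a (w.piecewise y x)) →
        |∑ q ∈ X b, ∑ γ, ∏ w ∈ (univ.erase b).powerset, G a (update (w.piecewise y x) b q) γ| ≤
          σ * (X b).card) →
      2 * (Yp.card : ℝ) ≤ Y.card + ε * (Fintype.piFinset X).card := by
  obtain ⟨N0, L, σ, hσ, H⟩ := half_box m N (show 0 < ε / (n + 1) ^ m by positivity)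
  refine ⟨L, σ, hσ, fun ι α K Γ _ _ _ _ o X b Yp Y col G h2 hm hn hN hL hp hY hG R F C => ?_⟩
  have c1 : 1 ≤ Fintype.card Γ := Fintype.card_pos_iff.2 ⟨o⟩
  have cd : ∀ i, (X i ×ˢ (univ : Finset Γ)).card = (X i).card * Fintype.card Γ :=
    fun i => card_product _ _
  have le : ∀ i, (X i).card ≤ (X i ×ˢ (univ : Finset Γ)).card := fun i =>
    cd i ▸ Nat.le_mul_of_pos_right _ c1
  have mem : ∀ z : ι → α × Γ, z ∈ Fintype.piFinset (fun i => X i ×ˢ univ) ↔
      pj z ∈ Fintype.piFinset X := fun z => by simp [pj]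
  have key := H ι (α × Γ) K (fun i => X i ×ˢ univ) univ b (up o Yp) (up o Y) (fun z => col (pj z))
    univ (fun _ _ => True) (fun a z => G (pj a) (pj z) (z b).2)
    (fun i => card_pos.1 (by have := le i; have := hL i; omega)) (mem_univ b) h2 hm
    (fun i _ => by have := le i; have := hL i; omega)
    (fun z hz => (mem z).2 (hp (mem_up.1 hz).1)) (fun z hz => (mem z).2 (hY (mem_up.1 hz).1)) hN
    (fun _ _ => mem_univ _) (fun _ _ => hG _ _ _)
    (fun a ha z hz h _ => mem_up.2 ⟨R _ ((mem a).1 ha) _ ((mem z).1 hz) (mo_up h2 h).1,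
      (mo_up h2 h).2⟩)
    (fun a ha z hz h _ => by
      rw [(mo_up h2 h).2 b]; exact F _ ((mem a).1 ha) _ (mem_up.1 hz).1 (mo_up h2 h).1)
    (fun _ _ _ _ _ _ => trivial) (fun j _ a ha x hx y hy hne hf => ?_)
  · rw [up, up, card_map, card_map, Fintype.card_piFinset] at key
    refine key.trans (add_le_add_right ?_ _)
    simp only [cd, prod_mul_distrib, prod_const, card_univ]
    rw [Fintype.card_piFinset, div_mul_eq_mul_div, div_le_iff₀ (by positivity), mul_assoc]
    refine mul_le_mul_of_nonneg_left ?_ hε.le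
    exact_mod_cast Nat.mul_le_mul_left _ ((Nat.pow_le_pow_left (hn.trans n.le_succ) _).trans
      (Nat.pow_le_pow_right n.succ_pos hm))
  · have := C _ ((mem _).1 (ha 0)) _ ((mem x).1 hx) _ ((mem y).1 hy) (fun i hi k => hne i hi
      (Prod.ext k ?_)) fun w hw => pj_pw w y x ▸ (fa_up (hf 0 w hw)).1
    · rw [sum_product]
      simp only [if_true, prod_const_one, mul_one, pj_update, pj_pw, update_self]
      exact this.trans (mul_le_mul_of_nonneg_left (by exact_mod_cast le b) hσ.le)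
    · have e1 := (fa_up (hf 0 ∅ (empty_subset _))).2 i hi
      have e2 := (fa_up (hf 0 _ le_rfl)).2 i hi
      rw [piecewise_empty] at e1
      rw [piecewise_eq_of_mem _ _ _ hi] at e2
      rw [e1, e2]

end Vale.Agent.P004S.Lv
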