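import Vale.Agent.P004S.Lv.Form
import Vale.Agent.P004S.Lv.Can
import Vale.Agent.P004S.Lv.Hx

/-!
# P004, block SMITH: row LEV
-/

set_option linter.all false

noncomputable section

namespace Vale.Agent.P004S.Lv

open NumberField Matrix Finset Function
open Vale.Agent.P022 (Qb GQ IsConj)
open Vale.Agent.P027M.S (Inert)
open Vale.Agent.P022D.W (dec)
open Vale.Agent.P022E.GW (Ov Fb Gn Ch)
open Cb

variable {ι : Type} [Fintype ι] [DecidableEq ι] {r : Rp} {S : Finset ℕ} {Λ : Loc r} {pl : Pl}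
  {k : ℕ} {m : ℤ} {X : ι → Finset ℕ} {L : ℝ}

theorem nu_tau_ne (pl : Pl) {q l : ℕ} (hq : q.Prime) (hl : l.Prime) (h2 : l ≠ 2) (h : q ≠ l) :
    nu q (pl.τ l) = 0 :=
  nu_inert (pl.ov l hl) h2 (fun k => h ((Nat.prime_dvd_prime_iff_eq hl hq).1
    (Int.natCast_dvd_natCast.1 k)).symm) (pl.τ_inert hl h2)

theorem Ld_empty (a : Finset ι → GQ → V) (g : GQ) : Ld a ∅ g = rv (a ∅ g) := by
  rw [Ld, Dl, DD_empty, dv]; simp

/-- the commutator which detects one cube of a family -/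
theorem ex_det (hL : LT) (hr : Rep r S) {A : Finset ι} {b : ι} (hb : b ∉ A) (hA : A.Nonempty)
    (hk : A.card ≤ k) {κ : Type} [Fintype κ] {u z : κ → ι → ℕ} {φ : κ → GQ → W}
    {a : κ → Finset ι → GQ → V}
    (h : ∀ w, Cx r S Λ pl k m X L A (u w) (z w) (φ w) (a w) (· ⊆ A)) {y : ι → ℕ}
    (hy : ∀ i, y i ∈ X i) (hu : ∀ w, ∀ i ∈ A, u w i ≠ y i) (w₀ : κ) (h0 : ∀ i ∈ A, z w₀ i = y i)
    (h1 : ∀ w, w ≠ w₀ → (∃ i ∈ A, z w i ≠ y i) ∨ u w b ≠ y b) (g : GQ) (j : ℕ) (e : W) :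
    ∃ t ∈ hr.Kn j, (∀ w, Low r A (nw (u w) (z w)) (Ld (a w)) t) ∧ (∀ d, nu d t = 0) ∧
      ∑ w, wp (Ld (a w) A t) e = wp (rb r g *ᵥ φ w₀ (pl.τ (y b))) e := by
  have fam := (h w₀).fam
  have yp := fun i => fam.pm i _ (hy i)
  have kn : ∀ n i, Tr r n (pl.τ (y i)) := fun n i => hr.Kn_uns n _ _ (pl.ov _ (yp i).1) (yp i).2.1 _
    (pl.τ_inert (yp i).1 (hr.ne_two (yp i).2.1))
  have nz : ∀ i j, ∀ q ∈ X j, q ≠ y i → nu q (pl.τ (y i)) = 0 := fun i j q hq e =>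
    nu_tau_ne pl (fam.pm j q hq).1 (yp i).1 (hr.ne_two (yp i).2.1) e
  have off : ∀ w i j, j ≠ i → nw (u w) (z w) j (pl.τ (y i)) = 0 := fun w i j e => by
    rw [nw, nz i j _ ((h w).hx j) fun k => e (fam.dj j i _ (k ▸ (h w).hx j) (hy i)),
      nz i j _ ((h w).hz j) fun k => e (fam.dj j i _ (k ▸ (h w).hz j) (hy i)), add_zero]
  obtain ⟨t, t1, t2, t3⟩ := ex_comm hr (fun w => (h w).sy hL le_rfl hk fun _ e => e)
    (fun i => pl.τ (y i)) (g * pl.τ (y b) * g⁻¹) (fun w => ⟨hr.tr_one_iff.1 (hr.tr_conj (kn 1 b) g),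
      fun i hi => by
        rw [nw, nu_conj, nu_conj]; exact off w b i fun e => hb (e ▸ hi)⟩)
    (fun i _ => ⟨hr.tr_one_iff.1 (kn 1 i), fun w j _ e => off w i j e⟩) A le_rfl
  refine ⟨t, t1 _ (hr.Kn_normal j) (hr.tr_conj (kn j b) g), fun w => ⟨(t3 w).1, fun T hT => by
    rw [(t3 w).2 T hT.subset, if_neg hT.not_subset]⟩, t2 hA, ?_⟩
  have val : ∀ w, Ld (a w) A t = (∏ i ∈ A, nw (u w) (z w) i (pl.τ (y i))) •
      (rb r g *ᵥ φ w (pl.τ (y b))) := fun w => by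
    have zb := ((h w).sel ∅ (empty_subset _)).zb hr k.succ_pos
    rw [(t3 w).2 A le_rfl, if_pos le_rfl, sdiff_self, bot_eq_empty, Ld_empty,
      zb.conj hr g (hr.tr_one_iff.1 (kn 1 b)), (h w).red ∅ (empty_subset _)]
  rw [sum_eq_single w₀ (fun w _ e => ?_) fun e => (e (mem_univ _)).elim, val,
    prod_eq_one fun i hi => ?_, one_smul]
  · rw [nw, nz i i _ ((h w₀).hx i) (hu w₀ i hi), h0 i hi, zero_add]
    exact nu_gn (pl.ov _ (yp i).1) (pl.gn _ (yp i).1 (hr.ne_two (yp i).2.1))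
  rw [val]
  rcases h1 w e with ⟨i, hi, e⟩ | e
  · rw [prod_eq_zero hi, zero_smul, wp_zero_left]
    rw [nw, nz i i _ ((h w).hx i) (hu w i hi), nz i i _ ((h w).hz i) e, add_zero]
  · rw [← (h w).red ∅ (empty_subset _), rv_eq_zero.2, mulVec_zero, smul_zero, wp_zero_left]
    refine (((h w).sel ∅ (empty_subset _)).inert hr (pl.ov _ (yp b).1) (yp b).2.1
      ((h w).toCy.ndvd (yp b).1 (yp b).2.2.1 (fun j hj => fam.dj j b _ hj (hy b)) e)
      (pl.τ_inert (yp b).1 (hr.ne_two (yp b).2.1))).trans ?_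
    simpa using half_anti k.succ_pos

theorem Gf_congr {A : Finset ι} {ν ν' : ι → GQ → ZMod 2} {C C' : Finset ι → GQ → W}
    (h1 : ∀ i ∈ A, ν i = ν' i) (h2 : ∀ T ⊆ A, C T = C' T) (e : W) (σ t : GQ) :
    Gf r A ν C e σ t = Gf r A ν' C' e σ t := by
  have : Low r A ν C σ ↔ Low r A ν' C' σ :=
    and_congr (and_congr Iff.rfl (forall₂_congr fun i hi => by rw [h1 i hi]))
      (forall₂_congr fun T hT => by rw [h2 T hT.subset])
  rw [Gf, Gf, h2 A le_rfl]
  by_cases k : Low r A ν C σ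
  · rw [if_pos k, if_pos (this.1 k)]
  · rw [if_neg k, if_neg fun j => k (this.2 j)]

open Classical in
/-- a chosen lift -/
def lt1 (r : Rp) (Λ : Loc r) (k : ℕ) (d : ℤ) (φ : GQ → W) : GQ → V :=
  if h : Lift r Λ k d φ then h.choose else 0

theorem lt1_spec {d : ℤ} {φ : GQ → W} (h : Lift r Λ k d φ) :
    SelK r Λ k d (lt1 r Λ k d φ) ∧ ∀ g, rv (lt1 r Λ k d φ g) = φ g := by
  rw [lt1, dif_pos h]; exact h.choose_spec

theorem lt1_int (d : ℤ) (φ : GQ → W) (g : GQ) : ‖lt1 r Λ k d φ g‖ ≤ 1 := by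
  by_cases h : Lift r Λ k d φ
  · exact (lt1_spec h).1.int g
  · rw [lt1, dif_neg h]; simp

open Classical in
/-- the test elements -/
def el (pl : Pl) (B : Set (GQ → W)) (y : ι → ℕ) : B ⊕ ι → GQ :=
  Sum.elim (fun F => if h : ∃ g, F.1 g ≠ 0 then h.choose else 1) fun i => pl.τ (y i)

/-- the colour of one family -/
def cl1 (r : Rp) (Λ : Loc r) (pl : Pl) (k : ℕ) (m : ℤ) (B : Set (GQ → W)) (φ : ℕ → GQ → W) (c : ι)
    (y : ι → ℕ) (j : B ⊕ ι) : Fin 2 → ZMod (2 ^ k) :=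
  rw' k (lt1 r Λ k (dd m y) (φ (y c)) (el pl B y j))

/-- the mutual symbols -/
def sym (pl : Pl) (y : ι → ℕ) (i j : ι) : ZMod 2 := nu (y j) (pl.σ (y i))

/-- the cochains of a cube -/
def cb (r : Rp) (Λ : Loc r) (k : ℕ) (m : ℤ) (φ : ℕ → GQ → W) (c : ι) (a z : ι → ℕ)
    (w : Finset ι) : GQ → V := lt1 r Λ k (dd m ((insert c w).piecewise z a)) (φ (z c))

theorem pw_upd (c : ι) (a z : ι → ℕ) (w : Finset ι) :
    w.piecewise z (update a c (z c)) = (insert c w).piecewise z a := by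
  funext i
  by_cases h : i = c
  · subst h
    by_cases k : i ∈ w <;> simp [k]
  · by_cases k : i ∈ w <;> simp [k, h]

/-- primes of one piece have the same characters at `S` and `m` -/
def Sm (S : Finset ℕ) (m : ℤ) (X : ι → Finset ℕ) : Prop :=
  ∀ i, ∀ q ∈ X i, ∀ q' ∈ X i, ∀ (l : ℕ) (P : Ideal (𝓞 Qb)), Ov l P → l ∈ S ∨ (l : ℤ) ∣ m →
    ∀ g ∈ dec P, nu q g = nu q' g

theorem Sm.pre (h : Sm S m X) (fam : Fam S m X L) {y y' : ι → ℕ} (hy : ∀ i, y i ∈ X i)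
    (hy' : ∀ i, y' i ∈ X i) {F : GQ → W} (hF : Pre r S m (dd m y) F) : Pre r S m (dd m y') F :=
  ⟨hF.1, hF.2.1, fun l P ho hS hm => (hF.2.2 l P ho hS hm).imp fun n hn g hg => by
    rw [ac_congr r (e := dd m y)]
    · exact hn g hg
    rw [nu_dd fam.ne fun i => (fam.pm i _ (hy' i)).1.ne_zero,
      nu_dd fam.ne fun i => (fam.pm i _ (hy i)).1.ne_zero]
    exact congrArg _ (sum_congr rfl fun i _ => h i _ (hy' i) _ (hy i) l P ho (.inr hm) g hg)⟩

/-- from colours to cubes -/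
theorem mk_cx (hL : LT) (hr : Rep r S) (fam : Fam S m X L) (hs : Sm S m X) {y₀ a z : ι → ℕ}
    (h0 : ∀ i, y₀ i ∈ X i) (ha : ∀ i, a i ∈ X i) (hz : ∀ i, z i ∈ X i) {φ : ℕ → GQ → W} {c : ι}
    {J : Finset ι} (hc : c ∉ J) {Gd H : Finset ι → Prop}
    (hH : ∀ w, H w → Lift r Λ (k + 1) (dd m (w.piecewise z a)) (φ (w.piecewise z a c)) ∧
      cl1 r Λ pl (k + 1) m {F | Pre r S m (dd m y₀) F} φ c (w.piecewise z a) =
        cl1 r Λ pl (k + 1) m {F | Pre r S m (dd m y₀) F} φ c a ∧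
      sym pl (w.piecewise z a) = sym pl a)
    (h1 : ∀ w, Gd w → H (insert c w)) (h2 : ∀ w ⊆ insert c J, w.card ≤ 2 → H w) :
    Cx r S Λ pl k m X L J (update a c (z c)) z (φ (z c)) (cb r Λ (k + 1) m φ c a z) Gd := by
  have hx : ∀ i, update a c (z c) i ∈ X i := fun i => by
    by_cases e : i = c
    · subst e; simpa using hz i
    · simpa [e] using ha i
  have lift : ∀ w, Gd w → Lift r Λ (k + 1) (dd m ((insert c w).piecewise z a)) (φ (z c)) :=
    fun w hw => pw_insert (x := a) (z := z) w c ▸ (hH _ (h1 w hw)).1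
  have col : ∀ w, Gd w → ∀ j, ‖cb r Λ (k + 1) m φ c a z w (el pl _ ((insert c w).piecewise z a) j) -
      cb r Λ (k + 1) m φ c a z ∅ (el pl {F | Pre r S m (dd m y₀) F}
        ((insert c ∅ : Finset ι).piecewise z a) j)‖ ≤ (1 / 2) ^ (k + 1) := fun w hw j => by
    have e := congrFun ((hH _ (h1 w hw)).2.1.trans (hH (insert c ∅)
      (h2 _ (by simp) (by simp))).2.1.symm) j
    rw [cl1, cl1, pw_insert, pw_insert] at e
    exact (rw_eq_iff _ (lt1_int _ _ _) (lt1_int _ _ _)).1 e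
  refine ⟨⟨fam, hx, hz, fun j hj l P ho e g hg => ?_⟩, hr, fun w hw => ?_, fun w hw => ?_,
    fun w hw i => ?_, fun F hF hne => ?_⟩
  · have jc : j ≠ c := fun e => hc (e ▸ hj)
    rw [nw, CharTwo.add_eq_zero, update_of_ne jc]
    rw [← or_assoc] at e
    rcases e with e | ⟨i, hi, e⟩
    · exact hs j _ (ha j) _ (hz j) l P ho e g hg
    obtain ⟨w, w1, w2, rfl⟩ : ∃ w : Finset ι, w ⊆ {i} ∧ w ⊆ insert c J ∧ l = w.piecewise z a i := by
      rcases e with e | e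
      · by_cases ic : i = c
        · exact ⟨{i}, le_rfl, by simp [ic], by simp [e, ic]⟩
        · exact ⟨∅, by simp, by simp, by simp [e, ic]⟩
      · exact ⟨{i}, le_rfl, by simp [e.1], by simp [e.2]⟩
    have jw : j ∉ w := fun k => hi (mem_singleton.1 (w1 k)).symm
    have wc : w.card ≤ 1 := card_le_card w1
    have e1 := congrFun (congrFun ((hH w (h2 w w2 (by omega))).2.2.trans (hH (insert j w) (h2 _
      (insert_subset (mem_insert_of_mem hj) w2) (by rw [card_insert_of_notMem jw]; omega))).2.2.symm)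
      i) j
    rw [sym, sym, pw_insert, piecewise_eq_of_notMem _ _ _ jw, piecewise_insert_of_ne _ _ _ hi] at e1
    have hl : w.piecewise z a i ∈ X i := by
      by_cases e : i ∈ w
      · rw [piecewise_eq_of_mem _ _ _ e]; exact hz i
      · rw [piecewise_eq_of_notMem _ _ _ e]; exact ha i
    have nd : ∀ q ∈ X j, ¬ ((w.piecewise z a i : ℕ) : ℤ) ∣ q := fun q hq e => hi (fam.dj i j _ hl
      ((Nat.prime_dvd_prime_iff_eq ho.1 (fam.pm j q hq).1).1 (Int.natCast_dvd_natCast.1 e) ▸ hq))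
    exact hL.nu_dec pl ho.1 (hr.ne_two (fam.pm i _ hl).2.1) (nd _ (ha j)) (nd _ (hz j)) e1 ho hg
  · rw [dw, pw_upd]; exact (lt1_spec (lift w hw)).1
  · exact (lt1_spec (lift w hw)).2
  · have := col w hw (.inr i)
    rwa [← pw_upd, ← pw_upd, piecewise_empty] at this
  · have hF' : Pre r S m (dd m y₀) F := hs.pre fam (by simpa using hx) h0 hF
    have ex : ∃ g, F g ≠ 0 := Function.ne_iff.1 hne
    refine ⟨ex.choose, ex.choose_spec, fun w hw => ?_⟩
    simpa only [el, Sum.elim_inl, dif_pos ex] using col w hw (.inl ⟨F, hF'⟩)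

theorem mod_eight (hr : Rep r S) {q : ℕ} (hq : q.Prime) (hS : q ∉ S) (h : Tr r 3 (pl.σ q)) :
    q % 8 = 1 := by
  have e := (hr.frob q hq hS _ ⟨_, (pl.ov q hq).2.1, (pl.ov q hq).2.2, pl.fb q hq⟩).1
  have e2 : (((q : ℤ) - 1 : ℤ) : ℚ_[2]) = (mt r (pl.σ q) - 1) 0 0 * mt r (pl.σ q) 1 1 +
      (mt r (pl.σ q) - 1) 1 1 - (mt r (pl.σ q) - 1) 0 1 * mt r (pl.σ q) 1 0 := by
    push_cast
    rw [← e, ep, det_fin_two]
    simp
    ring
  have k : ∀ i j i' j', ‖(mt r (pl.σ q) - 1) i j * mt r (pl.σ q) i' j'‖ ≤ (1 / 2) ^ 3 :=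
    fun i j i' j' => by
      rw [norm_mul]
      exact (mul_le_of_le_one_right (norm_nonneg _) (hr.int _ _ _)).trans (h i j)
  have e3 := (Padic.norm_int_le_pow_iff_dvd (p := 2) ((q : ℤ) - 1) 3).1 (by
    rw [e2]
    exact (norm_sub_le' (norm_add_le' (k _ _ _ _) (h 1 1)) (k _ _ _ _)).trans (by norm_num))
  omega

theorem prod_small {X X' : ι → Finset ℕ} (h : ∀ i, X i ⊆ X' i) {c : ℝ} {i : ι}
    (hi : ((X i).card : ℝ) ≤ c * (X' i).card) :
    ∏ j, ((X j).card : ℝ) ≤ c * ∏ j, ((X' j).card : ℝ) := by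
  rw [← mul_prod_erase _ _ (mem_univ i), ← mul_prod_erase _ _ (mem_univ i), ← mul_assoc]
  exact mul_le_mul hi (prod_le_prod (fun _ _ => Nat.cast_nonneg _) fun j _ => by
    exact_mod_cast card_le_card (h j)) (prod_nonneg fun _ _ => Nat.cast_nonneg _)
    ((Nat.cast_nonneg _).trans hi)

theorem log_pf (fam : Fam S m X L) : ∑ l ∈ m.natAbs.primeFactors, Real.log l ≤ L := by
  refine le_trans ?_ fam.lm
  rw [← Real.log_prod fun l hl => Nat.cast_ne_zero.2 (Nat.prime_of_mem_primeFactors hl).ne_zero,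
    ← Nat.cast_prod, Nat.prod_primeFactors_of_squarefree (Int.squarefree_natAbs.2 fam.sq)]
  simp

theorem sum_un {T T' : Finset ℕ} {c c' : ℝ} (h : ∑ l ∈ T, Real.log l ≤ c)
    (h' : ∑ l ∈ T', Real.log l ≤ c') : ∑ l ∈ T ∪ T', Real.log l ≤ c + c' := by
  have := sum_union_inter (s₁ := T) (s₂ := T') (f := fun l : ℕ => Real.log l)
  have : 0 ≤ ∑ l ∈ T ∩ T', Real.log l := sum_nonneg fun l _ => Real.log_natCast_nonneg l
  linarith

theorem log_im (fam : Fam S m X L) {y : ι → ℕ} (hy : ∀ i, y i ∈ X i) :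
    ∑ l ∈ univ.image y, Real.log l ≤ Fintype.card ι * L := by
  rw [sum_image fun i _ j _ e => fam.inj hy e]
  simpa using sum_le_card_nsmul univ _ L fun i _ => (fam.pm i _ (hy i)).2.2.2

variable {b p : ι} {φ ψ : ℕ → GQ → W} {Q : ℕ → ℕ → Prop} {e e' : W}

theorem mem_Yk {y : ι → ℕ} : y ∈ Yk r Λ pl b p m X φ ψ Q e e' k ↔ (∀ i, y i ∈ X i) ∧
    Q (y b) (y p) ∧ Lift r Λ k (dd m y) (φ (y b)) ∧ Lift r Λ k (dd m y) (ψ (y p)) ∧
      ∀ i, φ (y b) (pl.τ (y i)) = (if i = b then e else 0) ∧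
        ψ (y p) (pl.τ (y i)) = if i = p then e' else 0 := by
  classical
  simp only [Yk, mem_filter, Fintype.mem_piFinset]

/-- the colour -/
def col (r : Rp) (Λ : Loc r) (pl : Pl) (k : ℕ) (m : ℤ) (B : Set (GQ → W)) (φ ψ : ℕ → GQ → W)
    (b p : ι) (y : ι → ℕ) := (cl1 r Λ pl k m B φ b y, cl1 r Λ pl k m B ψ p y, sym pl y)

theorem ss_univ (hc : Fintype.card ι = k + 2) (hk : 1 ≤ k) {w : Finset ι} (h : w.card ≤ 2) :
    w ⊂ univ := Finset.ssubset_iff_subset_ne.2 ⟨subset_univ _, fun e => by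
  rw [e, card_univ] at h; omega⟩

section

variable (hL : LT) (hr : Rep r S) (fam : Fam S m X L) (hs : Sm S m X) {y₀ a z : ι → ℕ}
  (h0 : ∀ i, y₀ i ∈ X i) (ha : ∀ i, a i ∈ X i) (hz : ∀ i, z i ∈ X i)
  (hc : Fintype.card ι = k + 2) (hk : 1 ≤ k)
  (h : Mo univ (Yk r Λ pl b p m X φ ψ Q e e' (k + 1))
    (col r Λ pl (k + 1) m {F | Pre r S m (dd m y₀) F} φ ψ b p) a z)
include hL hr fam hs h0 ha hz hc hk h

theorem mo_cx : Cx r S Λ pl k m X L (univ.erase b) (update a b (z b)) z (φ (z b))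
      (cb r Λ (k + 1) m φ b a z) (· ⊂ univ.erase b) ∧
    Cx r S Λ pl k m X L (univ.erase p) (update a p (z p)) z (ψ (z p))
      (cb r Λ (k + 1) m ψ p a z) (· ⊂ univ.erase p) := by
  have k1 := h.2
  simp only [cor_univ, piecewise_empty, mem_Yk, col, Prod.mk.injEq] at k1
  exact ⟨mk_cx hL hr fam hs h0 ha hz (notMem_erase _ _) (H := (· ⊂ univ))
    (fun w hw => ⟨(k1 w hw).1.2.2.1, (k1 w hw).2.1, (k1 w hw).2.2.2⟩)
    (fun w hw => ins_ss (mem_univ _) hw) fun w _ hw => ss_univ hc hk hw,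
    mk_cx hL hr fam hs h0 ha hz (notMem_erase _ _) (H := (· ⊂ univ))
    (fun w hw => ⟨(k1 w hw).1.2.2.2.1, (k1 w hw).2.2.1, (k1 w hw).2.2.2⟩)
    (fun w hw => ins_ss (mem_univ _) hw) fun w _ hw => ss_univ hc hk hw⟩

omit hL hr fam hs h0 ha hz hc hk h in
theorem dw_top (c : ι) : dw m (update a c (z c)) z (univ.erase c) = dd m z := by
  rw [dw, pw_upd, insert_erase (mem_univ c), piecewise_univ]

theorem mo_refl (hU : UT) : z ∈ Yk r Λ pl b p m X φ ψ Q e e' k := by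
  obtain ⟨c1, c2⟩ := mo_cx hL hr fam hs h0 ha hz hc hk h
  have k1 : ∀ i j, ({i, j} : Finset ι).piecewise z a ∈ Yk r Λ pl b p m X φ ψ Q e e' (k + 1) :=
    fun i j => cor_univ a z _ ▸ (h.2 {i, j} (ss_univ hc hk card_le_two)).1
  have ce : ∀ c : ι, (univ.erase c).card = k + 1 := fun c => by
    rw [card_erase_of_mem (mem_univ c), card_univ, hc]; rfl
  refine mem_Yk.2 ⟨hz, by simpa using (mem_Yk.1 (k1 b p)).2.1,
    dw_top (a := a) b ▸ c1.refl hL hU (ce b) hk, dw_top (a := a) p ▸ c2.refl hL hU (ce p) hk,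
    fun i => ⟨?_, ?_⟩⟩
  · simpa using ((mem_Yk.1 (k1 b i)).2.2.2.2 i).1
  · simpa using ((mem_Yk.1 (k1 p i)).2.2.2.2 i).2

end

theorem mo_form (hL : LT) (hU : UT) (hO : ONEK) (hr : Rep r S) (hy : Cyc r) (fam : Fam S m X L)
    (hs : Sm S m X) {y₀ a z : ι → ℕ} (h0 : ∀ i, y₀ i ∈ X i) (ha : ∀ i, a i ∈ X i)
    (hc : Fintype.card ι = k + 1 + 2) (hbp : b ≠ p) (tr : ∀ i, ∀ q ∈ X i, Tr r 2 (pl.σ q))
    (hz : z ∈ Yk r Λ pl b p m X φ ψ Q e e' (k + 1 + 1))
    (h : Mo univ (Yk r Λ pl b p m X φ ψ Q e e' (k + 1 + 1))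
      (col r Λ pl (k + 1 + 1) m {F | Pre r S m (dd m y₀) F} φ ψ b p) a z) {t : GQ}
    (ht : t ∈ hr.Kn 1) : Gf r ((univ.erase b).erase p) (nw (update a b (z b)) z)
      (Ld (cb r Λ (k + 1 + 1) m φ b a z)) e' (pl.σ (z p)) t = 1 := by
  obtain ⟨z1, -, z2, z3, z4⟩ := mem_Yk.1 hz
  have c1 := (mo_cx hL hr fam hs h0 ha z1 hc k.succ_pos h).1
  have ce : (univ.erase b).card = k + 2 := by
    rw [card_erase_of_mem (mem_univ b), card_univ, hc]; rfl
  have hp : p ∈ univ.erase b := mem_erase.2 ⟨hbp.symm, mem_univ p⟩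
  have top : cb r Λ (k + 1 + 1) m φ b a z (univ.erase b) = lt1 r Λ (k + 2) (dd m z) (φ (z b)) := by
    rw [cb, insert_erase (mem_univ b), piecewise_univ]
  have e1 := c1.form hL hU hO hy ce hp (by
      rw [update_of_ne hbp.symm]; exact (h.1 p (mem_univ p)).symm)
    (by rw [top, dw_top]; exact (lt1_spec z2).1) (by rw [top]; exact (lt1_spec z2).2)
    (b := lt1 r Λ (k + 2) (dd m z) (ψ (z p)))
    (by rw [dw_top]; exact (lt1_spec z3).1.mono (Nat.le_succ _)) (fun i => tr i _ (z1 i))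
    fun i _ hi => by rw [(lt1_spec z3).2, (z4 i).2, if_neg hi]
  rw [(lt1_spec z3).2, (z4 p).2, if_pos rfl] at e1
  rw [Gf, if_pos (c1.low hL ce hp ((tr p _ (z1 p)).mono one_le_two)
    (by rw [(z4 p).1, if_neg hbp.symm])), hr.tr_one_iff.1 (inv_mem ht : _ ∈ hr.Kn 1), one_mulVec,
    e1, sgn_zero]

theorem fa_can (hL : LT) (hr : Rep r S) (fam : Fam S m X L) (hs : Sm S m X) {y₀ a x y : ι → ℕ}
    (h0 : ∀ i, y₀ i ∈ X i) (ha : ∀ i, a i ∈ X i) (hx : ∀ i, x i ∈ X i) (hy : ∀ i, y i ∈ X i)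
    (hc : Fintype.card ι = k + 2) (hk : 1 ≤ k) (hbp : b ≠ p) (hne : ∀ i ∈ univ.erase p, x i ≠ y i)
    (h : ∀ w ⊆ univ.erase p, Fa univ p (Yk r Λ pl b p m X φ ψ Q e e' (k + 1))
      (col r Λ pl (k + 1) m {F | Pre r S m (dd m y₀) F} φ ψ b p) a (w.piecewise y x))
    {g : GQ} (hg : wp (rb r g *ᵥ e) e' ≠ 0) {X' : Finset ℕ} {n : ℕ} {δ : ℝ}
    (hE : Equi pl X' n (n * L) δ) (hn : 3 * k + 8 ≤ n)
    (hn' : (hr.Kn (k + 2)).index * (2 ^ (k + 2) * 4 ^ 2 ^ (k + 2)) ^ 2 ^ (k + 1) ≤ n)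
    (s : ℕ → ZMod 2) [Fintype (GQ ⧸ hr.Kn 1)] :
    |∑ q ∈ piece r pl (k + 2) (S ∪ m.natAbs.primeFactors) X' s, ∑ γ : GQ ⧸ hr.Kn 1,
      ∏ w ∈ (univ.erase p).powerset, Gf r ((univ.erase b).erase p)
        (nw (update a b (w.piecewise y x b)) (w.piecewise y x))
        (Ld (cb r Λ (k + 1) m φ b a (w.piecewise y x))) e' (pl.σ q) γ.out| ≤ δ * X'.card := by
  set A := (univ.erase b).erase p
  have hb : b ∉ A := fun k => notMem_erase b univ (mem_of_mem_erase k)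
  have hp : b ∈ univ.erase p := mem_erase.2 ⟨hbp, mem_univ b⟩
  have hA : insert b A = univ.erase p := by
    rw [show A = (univ.erase p).erase b from erase_right_comm, insert_erase hp]
  have cp : (univ.erase p).card = k + 1 := by
    rw [card_erase_of_mem (mem_univ p), card_univ, hc]; rfl
  have cA : A.card = k := by
    have := card_insert_of_notMem hb
    rw [hA] at this
    omega
  have Ap : ∀ i ∈ A, i ∈ univ.erase p := fun i hi => hA ▸ mem_insert_of_mem hi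
  have pw : ∀ (w : Finset ι) i, w.piecewise y x i ∈ X i := fun w i => by
    by_cases e : i ∈ w
    · rw [piecewise_eq_of_mem _ _ _ e]; exact hy i
    · rw [piecewise_eq_of_notMem _ _ _ e]; exact hx i
  have cx : ∀ w : (univ.erase p).powerset, Cx r S Λ pl k m X L A
      (update a b (w.1.piecewise y x b)) (w.1.piecewise y x) (φ (w.1.piecewise y x b))
      (cb r Λ (k + 1) m φ b a (w.1.piecewise y x)) (· ⊆ A) := fun w => by
    have k1 := (h w.1 (mem_powerset.1 w.2)).2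
    simp only [cor_univ, piecewise_empty, mem_Yk, col, Prod.mk.injEq] at k1
    exact mk_cx hL hr fam hs h0 ha (pw _) hb (H := (· ⊆ univ.erase p))
      (fun w hw => ⟨(k1 w hw).1.2.2.1, (k1 w hw).2.1, (k1 w hw).2.2.2⟩)
      (fun w hw => hA ▸ insert_subset_insert b hw) fun w hw _ => hA ▸ hw
  obtain ⟨t, t1, t2, t3, t4⟩ := ex_det hL hr hb (card_pos.1 (by omega)) cA.le cx hy
    (fun w i hi => by
      have := ((h _ le_rfl).1 i (Ap i hi)).symm
      rw [piecewise_eq_of_mem _ _ _ (Ap i hi)] at this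
      rwa [update_of_ne (ne_of_mem_of_not_mem hi hb)])
    ⟨_, mem_powerset_self _⟩ (fun i hi => piecewise_eq_of_mem _ _ _ (Ap i hi))
    (fun w hw => by
      obtain ⟨i, hi, k⟩ := exists_of_ssubset (Finset.ssubset_iff_subset_ne.2
        ⟨mem_powerset.1 w.2, fun e => hw (Subtype.ext e)⟩)
      have e : w.1.piecewise y x i ≠ y i := by
        rw [piecewise_eq_of_notMem _ _ _ k]; exact hne i hi
      rcases mem_insert.1 (hA ▸ hi) with rfl | hi
      · exact .inr (by rwa [update_self])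
      · exact .inl ⟨i, hi, e⟩) g (k + 2) e'
  have pat : φ ((univ.erase p).piecewise y x b) (pl.τ (y b)) = e := by
    have := ((mem_Yk.1 ((h _ le_rfl).2 {b} (singleton_subset_iff.2 hp)).1).2.2.2.2 b).1
    simpa [cor_univ, hp, hbp] using this
  simp only [← prod_coe_sort (univ.erase p).powerset]
  refine can hr (fun w => (cx w).sy hL le_rfl cA.le fun _ e => e) e' hE (by omega) ?_
    (T' := S ∪ m.natAbs.primeFactors ∪ univ.image a ∪ univ.image x ∪ univ.image y) ?_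
    (by intro l hl; simp [hl]) (by intro l hl; simp only [mem_union] at hl ⊢; tauto)
    (fun l P ho hl g hg w => ?_) t1 t2 t3 (by rwa [t4, pat]) s
  · refine le_trans (le_of_eq ?_) hn'
    rw [Nat.card_eq_fintype_card, Fintype.card_fun, Fintype.card_coe, card_powerset, cp]
    simp [hc, W]
  · refine (sum_un (sum_un (sum_un (sum_un fam.lS (log_pf fam)) (log_im fam ha)) (log_im fam hx))
      (log_im fam hy)).trans ?_
    have : ((3 * k + 8 : ℕ) : ℝ) ≤ n := by exact_mod_cast hn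
    rw [hc]
    push_cast at this ⊢
    nlinarith [fam.L_nonneg]
  · simp only [mem_union, mem_image, mem_univ, true_and, not_or, not_exists] at hl
    obtain ⟨⟨⟨⟨l1, l2⟩, l3⟩, l4⟩, l5⟩ := hl
    have n1 : ∀ i, w.1.piecewise y x i ≠ l := fun i => by
      by_cases e : i ∈ w.1
      · rw [piecewise_eq_of_mem _ _ _ e]; exact l5 i
      · rw [piecewise_eq_of_notMem _ _ _ e]; exact l4 i
    have n2 : ∀ i, update a b (w.1.piecewise y x b) i ≠ l := fun i => by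
      by_cases e : i = b
      · rw [e, update_self]; exact n1 b
      · rw [update_of_ne e]; exact l3 i
    have nz : ∀ i, ∀ q ∈ X i, q ≠ l → nu q g = 0 := fun i q hq e =>
      nu_inert ho (hr.ne_two l1) (fun k => e ((Nat.prime_dvd_prime_iff_eq ho.1
        (fam.pm i q hq).1).1 (Int.natCast_dvd_natCast.1 k)).symm) hg
    refine ⟨fun i _ => by rw [nw, nz i _ ((cx w).hx i) (n2 i), nz i _ (pw _ i) (n1 i), add_zero],
      fun U hU => rv_dv.2 (norm_DD_le fun v hv => (((cx w).sel v (hv.trans hU)).inert hr ho l1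
        (fun k => ?_) hg).trans (half_anti (by have := card_le_card hU; omega)))⟩
    rcases ((cx w).toCy.dvd v ho.1).1 k with e | ⟨i, e⟩
    · exact l2 (Nat.mem_primeFactors.2 ⟨ho.1, Int.natCast_dvd.1 e, Int.natAbs_ne_zero.2 fam.ne⟩)
    · by_cases e2 : i ∈ v
      · rw [piecewise_eq_of_mem _ _ _ e2] at e; exact n1 i e
      · rw [piecewise_eq_of_notMem _ _ _ e2] at e; exact n2 i e

/-- **row LEV** -/
theorem lev : iLEV := by
  classical
  intro hL hU hQ hO r S Λ pl hr hy k R ε hk hε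
  obtain ⟨L₀, σ, hσ, H⟩ := half_aux (k + 2) ((((2 ^ (k + 1)) ^ 2) ^ (R + (k + 2))) ^ 2 *
    (2 ^ (k + 2)) ^ (k + 2)) 16 (show 0 < 2 * ε by positivity)
  refine ⟨L₀ + 1 / σ, max (3 * k + 8)
    ((hr.Kn (k + 2)).index * (2 ^ (k + 2) * 4 ^ 2 ^ (k + 2)) ^ 2 ^ (k + 1)), ?_⟩
  intro ι _ _ b p m X X' L κ s φ ψ Q e e' g hbp hc fam' hX hR hE hκ hg
  have sub : ∀ i, X i ⊆ X' i := fun i => by rw [hX i]; exact filter_subset _ _
  have κ0 : 0 ≤ κ := by
    by_contra! k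
    linarith [hκ p, mul_nonpos_of_nonpos_of_nonneg k.le (Nat.cast_nonneg (X' p).card)]
  have σ0 : 0 < 1 / σ := by positivity
  have p0 : (0 : ℝ) ≤ ∏ i, ((X i).card : ℝ) := prod_nonneg fun _ _ => Nat.cast_nonneg _
  have ys : ∀ j, Yk r Λ pl b p m X φ ψ Q e e' j ⊆ Fintype.piFinset X := fun j =>
    filter_subset _ _
  by_cases big : ∃ i, ((X i).card : ℝ) ≤ (L₀ + 1 / σ) * κ * (X' i).card
  · obtain ⟨i, hi⟩ := big
    have : ((Yk r Λ pl b p m X φ ψ Q e e' (k + 1)).card : ℝ) ≤ ∏ i, ((X i).card : ℝ) := by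
      exact_mod_cast (card_le_card (ys _)).trans (Fintype.card_piFinset X).le
    have := prod_small sub hi
    have : (0 : ℝ) ≤ (Yk r Λ pl b p m X φ ψ Q e e' k).card := Nat.cast_nonneg _
    nlinarith
  push Not at big
  have big1 : ∀ i, L₀ + 1 ≤ (X i).card := fun i => by
    have : (L₀ : ℝ) < (X i).card := by
      nlinarith [big i, hκ i, (Nat.cast_nonneg L₀ : (0 : ℝ) ≤ L₀)]
    exact_mod_cast this
  have big2 : κ * (X' p).card ≤ σ * (X p).card := by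
    rw [← div_le_iff₀' hσ, div_eq_mul_one_div]
    nlinarith [big p, hκ p, (Nat.cast_nonneg L₀ : (0 : ℝ) ≤ L₀)]
  have fam : Fam S m X L := ⟨fam'.sq, fun i x hx => fam'.pm i x (sub i hx),
    fun i j x hi hj => fam'.dj i j x (sub i hi) (sub j hj), fam'.lm, fam'.lS⟩
  have pc : ∀ i, ∀ q ∈ X i, Tr r (k + 2) (pl.σ q) ∧
      ∀ l ∈ S ∪ m.natAbs.primeFactors, l.Prime → nu l (pl.σ q) = s i l := fun i q hq => by
    rw [hX i] at hq; exact (mem_filter.1 hq).2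
  have hs : Sm S m X := fun i q hq q' hq' l P ho hl => by
    have e8 : ∀ q ∈ X i, q % 8 = 1 := fun q hq =>
      mod_eight hr (fam.pm i q hq).1 (fam.pm i q hq).2.1 ((pc i q hq).1.mono (by omega))
    have ne : ∀ q ∈ X i, l ≠ q := fun q hq e =>
      hl.elim (e ▸ (fam.pm i q hq).2.1) (e ▸ (fam.pm i q hq).2.2.1)
    have hl' : l ∈ S ∪ m.natAbs.primeFactors := mem_union.2 (hl.imp_right fun e =>
      Nat.mem_primeFactors.2 ⟨ho.1, Int.natCast_dvd.1 e, Int.natAbs_ne_zero.2 fam.ne⟩)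
    exact hQ pl q q' l P (fam.pm i q hq).1 (fam.pm i q' hq').1 (e8 q hq) (e8 q' hq') ho (ne q hq)
      (ne q' hq') (((pc i q hq).2 l hl' ho.1).trans ((pc i q' hq').2 l hl' ho.1).symm)
  choose y₀ h0 using fun i => card_pos.1 (Nat.succ_pos _ |>.trans_le (big1 i))
  obtain ⟨fin, hB⟩ := hR y₀ (Fintype.mem_piFinset.2 h0)
  haveI := fin.fintype
  haveI := (hr.Kn 1).quotient_finite_of_isOpen (hr.Kn_open 1)
  haveI := Fintype.ofFinite (GQ ⧸ hr.Kn 1)
  have key := H ι ℕ _ (GQ ⧸ hr.Kn 1) (QuotientGroup.mk 1) X p (Yk r Λ pl b p m X φ ψ Q e e' (k + 1))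
    (Yk r Λ pl b p m X φ ψ Q e e' k) (col r Λ pl (k + 1) m {F | Pre r S m (dd m y₀) F} φ ψ b p)
    (fun a z γ => Gf r ((univ.erase b).erase p) (nw (update a b (z b)) z)
      (Ld (cb r Λ (k + 1) m φ b a z)) e' (pl.σ (z p)) γ.out) (by omega) hc.le
    (by rw [← Nat.card_eq_fintype_card]; exact hr.Kn_one_index) ?_ big1 (ys _) (ys _)
    (fun _ _ _ => abs_Gf _ _ _ _ _)
    (fun a ha z hz h => mo_refl hL hr fam hs h0 (Fintype.mem_piFinset.1 ha)
      (Fintype.mem_piFinset.1 hz) hc hk h hU) (fun a ha z hz h => ?_)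
    fun a ha x hx y hy' hne h => ?_
  · rw [Fintype.card_piFinset, Nat.cast_prod] at key
    have : 0 ≤ (L₀ + 1 / σ) * κ * ∏ i, ((X' i).card : ℝ) :=
      mul_nonneg (by positivity) (prod_nonneg fun _ _ => Nat.cast_nonneg _)
    linarith
  · rw [Set.ncard_eq_toFinset_card', Set.toFinset_card] at hB
    simp only [Fintype.card_prod, Fintype.card_fun, ZMod.card, Fintype.card_fin, Fintype.card_sum,
      hc]
    rw [← mul_assoc, ← sq]
    gcongr
    exact Nat.one_le_pow _ _ (by positivity)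
  · obtain ⟨k, rfl⟩ : ∃ j, k = j + 1 := ⟨k - 1, by omega⟩
    refine mo_form hL hU hO hr hy fam hs h0 (Fintype.mem_piFinset.1 ha) hc hbp
      (fun i q hq => (pc i q hq).1.mono (by omega)) hz h ?_
    simpa using QuotientGroup.eq.1 (QuotientGroup.out_eq' (QuotientGroup.mk 1 : GQ ⧸ hr.Kn 1))
  · refine le_trans (le_of_eq (congrArg _ ?_)) ((fa_can hL hr fam hs h0 (Fintype.mem_piFinset.1 ha)
      (Fintype.mem_piFinset.1 hx) (Fintype.mem_piFinset.1 hy') hc hk hbp hne h hg hE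
      (le_max_left _ _) (le_max_right _ _) (s p)).trans big2)
    rw [← hX p]
    refine sum_congr rfl fun q _ => sum_congr rfl fun γ _ => prod_congr rfl fun w _ => ?_
    rw [update_self, update_of_ne hbp]
    refine Gf_congr (fun i hi => funext fun t => ?_) (fun T hT => funext fun t => ?_) _ _ _
    · rw [nw, nw, update_of_ne (ne_of_mem_erase hi)]
    · refine congrArg (fun v => rv (dv _ v)) (DD_congr fun v hv => ?_)
      have := cor_update (w := insert b v) (mem_univ p) (fun k => (mem_insert.1 k).elim hbp.symm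
        fun k => notMem_erase p _ (hT (hv k))) a (w.piecewise y x) q
      rw [cor_univ, cor_univ] at this
      rw [cb, cb, update_of_ne hbp, this]

end Vale.Agent.P004S.Lv
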